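import Vale.Agent.P011.H929.DP

/-!
Independence in splittings of an algebra of degree three.
-/

open Module Matrix

set_option linter.unusedSectionVars false

namespace Vale.Agent.P011.H521

open Vale.Agent.P011.H929

section gen

variable {K D L : Type} [Field K] [Ring D] [IsSimpleRing D] [Algebra K D]
  [Algebra.IsCentral K D] [Field L] [Algebra K L] {n : ℕ}

/-- Images of independent elements are independent in every splitting. -/
theorem split_indep (hn : 0 < n) (f : D →ₐ[K] Matrix (Fin n) (Fin n) L) {ι : Type}
    {x : ι → D} (hx : LinearIndependent K x) : LinearIndependent L (fun i => f (x i)) := by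
  have h0 : LinearIndepOn K id (Set.range x) := hx.linearIndepOn_id
  let b := Basis.extend h0
  have h1 := H268.splitS_indep hn f b
  have hmem : ∀ i, x i ∈ h0.extend (Set.subset_univ (Set.range x)) := fun i =>
    h0.subset_extend (Set.subset_univ _) ⟨i, rfl⟩
  have h2 := h1.comp (fun i => (⟨x i, hmem i⟩ : h0.extend (Set.subset_univ (Set.range x))))
    (by
      intro i j hij
      exact hx.injective (congrArg Subtype.val hij))
  have h3 : (fun j => f (b j)) ∘ (fun i => (⟨x i, hmem i⟩ :
      h0.extend (Set.subset_univ (Set.range x)))) = fun i => f (x i) := by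
    funext i
    simp only [Function.comp_apply, b, Basis.extend_apply_self]
  rw [h3] at h2
  exact h2

end gen

section div

variable {K D : Type} [Field K] [DivisionRing D] [Algebra K D] [FiniteDimensional K D]

/-- A noncentral element of an algebra of degree three satisfies no quadratic equation. -/
theorem no_quad (h : finrank K D = 3 ^ 2) {z : D} (hz : z ∉ Set.range (algebraMap K D))
    {α β γ : K} (h0 : α • (z * z) + β • z + γ • (1 : D) = 0) : α = 0 ∧ β = 0 ∧ γ = 0 := by
  have hα : α = 0 := by
    by_contra hα
    have hA : Algebra.adjoin K {z} ≠ ⊥ := by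
      intro h1
      have : z ∈ Algebra.adjoin K {z} := Algebra.self_mem_adjoin_singleton K z
      rw [h1] at this
      exact hz (Algebra.mem_bot.mp this)
    have hww : z * z = (-(β / α)) • z + (-(γ / α)) • (1 : D) := by
      have h5 : α • (z * z) = (-β) • z + (-γ) • (1 : D) := by
        rw [neg_smul, neg_smul, ← sub_eq_zero, ← h0]
        abel
      have h7 : z * z = α⁻¹ • (α • (z * z)) := by
        rw [smul_smul, inv_mul_cancel₀ hα, one_smul]
      rw [h7, h5, smul_add, smul_smul, smul_smul, div_eq_inv_mul, div_eq_inv_mul, mul_neg, mul_neg]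
    have hsub : Subalgebra.toSubmodule (Algebra.adjoin K {z}) ≤ Submodule.span K {1, z} := by
      intro x hx
      have hx' : x ∈ Algebra.adjoin K {z} := hx
      clear hx
      induction hx' using Algebra.adjoin_induction with
      | mem x hx =>
        rw [Set.mem_singleton_iff] at hx
        subst hx
        exact Submodule.subset_span (by simp)
      | algebraMap c =>
        rw [Algebra.algebraMap_eq_smul_one]
        exact Submodule.smul_mem _ _ (Submodule.subset_span (by simp))
      | add x y hx1 hy1 hx2 hy2 => exact add_mem hx2 hy2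
      | mul x y hx1 hy1 hx2 hy2 =>
        obtain ⟨a, b, hab⟩ := Submodule.mem_span_pair.mp hx2
        obtain ⟨a', b', hab'⟩ := Submodule.mem_span_pair.mp hy2
        have e : x * y = (a * a' - b * b' * (γ / α)) • (1 : D) +
            (a * b' + b * a' - b * b' * (β / α)) • z := by
          have e0 : x * y = (a * a') • (1 : D) + (a * b' + b * a') • z + (b * b') • (z * z) := by
            rw [← hab, ← hab']
            simp only [add_mul, mul_add, smul_mul_assoc, mul_smul_comm, one_mul, mul_one]
            module
          rw [e0, hww]
          module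
        rw [e]
        exact Submodule.mem_span_pair.mpr ⟨_, _, rfl⟩
    have h8 : finrank K (Algebra.adjoin K {z}) ≤ finrank K (Submodule.span K ({1, z} : Set D)) :=
      Submodule.finrank_mono hsub
    have h9 : finrank K (Submodule.span K ({1, z} : Set D)) ≤ 2 := by
      classical
      have h10 := finrank_span_finset_le_card (R := K) (M := D) ({1, z} : Finset D)
      rw [Finset.coe_insert, Finset.coe_singleton] at h10
      exact h10.trans Finset.card_le_two
    have hA2 : Algebra.adjoin K {z} ≠ ⊤ := by
      intro h1
      rw [h1] at h8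
      have h11 : finrank K (⊤ : Subalgebra K D) = finrank K D :=
        LinearEquiv.finrank_eq Subalgebra.topEquiv.toLinearEquiv
      rw [h11, h] at h8
      omega
    have h3 := finrank_eq_of_ne Nat.prime_three h hA hA2
    omega
  rw [hα, zero_smul, zero_add] at h0
  have hβ : β = 0 := by
    by_contra hβ
    apply hz
    refine ⟨-(γ / β), ?_⟩
    have h5 : β • z = (-γ) • (1 : D) := by
      rw [neg_smul, ← sub_eq_zero, ← h0]
      abel
    have h7 : z = β⁻¹ • (β • z) := by rw [smul_smul, inv_mul_cancel₀ hβ, one_smul]
    rw [h7, h5, smul_smul, Algebra.algebraMap_eq_smul_one, div_eq_inv_mul, mul_neg]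
  rw [hβ, zero_smul, zero_add] at h0
  refine ⟨hα, hβ, ?_⟩
  by_contra hγ
  exact one_ne_zero ((smul_eq_zero.mp h0).resolve_left hγ)

variable [Algebra.IsCentral K D] {L : Type} [Field L] [Algebra K L]

/-- The same in every splitting. -/
theorem no_quad_split (h : finrank K D = 3 ^ 2) (f : D →ₐ[K] Matrix (Fin 3) (Fin 3) L) {z : D}
    (hz : z ∉ Set.range (algebraMap K D)) {α β γ : L}
    (h0 : α • (f z * f z) + β • f z + γ • (1 : Matrix (Fin 3) (Fin 3) L) = 0) :
    α = 0 ∧ β = 0 ∧ γ = 0 := by
  have h1 : LinearIndependent K ![z * z, z, 1] := by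
    rw [Fintype.linearIndependent_iff]
    intro g hg
    rw [Fin.sum_univ_three] at hg
    obtain ⟨e0, e1, e2⟩ := no_quad h hz (α := g 0) (β := g 1) (γ := g 2) hg
    intro i
    fin_cases i
    · exact e0
    · exact e1
    · exact e2
  have h2 := split_indep (by norm_num) f h1
  rw [Fintype.linearIndependent_iff] at h2
  have h3 := h2 ![α, β, γ] (by
    rw [Fin.sum_univ_three]
    simp only [Matrix.cons_val_zero, Matrix.cons_val_one, Matrix.cons_val, map_mul, map_one]
    exact h0)
  exact ⟨h3 0, h3 1, h3 2⟩

end div

end Vale.Agent.P011.H521
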