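import Mathlib.Analysis.Normed.Unbundled.SpectralNorm
import Vale.Agent.P011.H74.GoodEig
import Vale.Agent.P011.H182.LocAbs

/-!
The move makes the eigenvalue hyperbolic for all elements near a given one.
-/

open Module Matrix Topology Filter

set_option linter.unusedSectionVars false

namespace Vale.Agent.P011.H521

open Vale.Agent.P011.H182 Vale.Agent.P011.H521.LC Vale.Agent.P011.H74.LCF

section normed

variable {F L : Type} [NormedField F] [ProperSpace F] [NontriviallyNormedField L] [CompleteSpace L]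
  [IsUltrametricDist L] [StarRing L] [Algebra F L] {N : ℕ}

/-- Neighbourhoods in terms of the coordinates. -/
theorem nhds_of_ne (hF : ∀ c : F, ‖algebraMap F L c‖ = ‖c‖)
    (BA : Basis (Fin N) F (Matrix (Fin 3) (Fin 3) L)) (U : Matrix (Fin 3) (Fin 3) L)
    {O : Set (Matrix (Fin 3) (Fin 3) L)} (hO : O ∈ 𝓝 U) :
    ∃ δ : ℝ, 0 < δ ∧ ∀ Y, ne BA (Y - U) < δ → Y ∈ O := by
  have hFc : Continuous (algebraMap F L) := by
    have h1 : Isometry (algebraMap F L) := Isometry.of_dist_eq fun x y => by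
      rw [dist_eq_norm, dist_eq_norm, ← map_sub, hF]
    exact h1.continuous
  let P : (Fin N → F) → Matrix (Fin 3) (Fin 3) L := fun c => ∑ i, c i • BA i
  have hP : Continuous P := by
    refine continuous_finsetSum _ fun i _ => ?_
    have h1 : (fun c : Fin N → F => c i • BA i) = fun c => algebraMap F L (c i) • BA i := by
      funext c
      rw [algebraMap_smul]
    rw [h1]
    exact (hFc.comp (continuous_apply i)).smul continuous_const
  have hPr : ∀ Y, P (fun i => BA.repr Y i) = Y := fun Y => BA.sum_repr Y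
  have h2 : P ⁻¹' O ∈ 𝓝 (fun i => BA.repr U i) := by
    apply hP.continuousAt
    rw [hPr]
    exact hO
  obtain ⟨δ, hδ, hδO⟩ := Metric.mem_nhds_iff.mp h2
  refine ⟨δ, hδ, fun Y hY => ?_⟩
  have h3 : (fun i => BA.repr Y i) ∈ P ⁻¹' O := by
    apply hδO
    rw [Metric.mem_ball, dist_pi_lt_iff hδ]
    intro i
    rw [dist_eq_norm]
    refine lt_of_le_of_lt ?_ hY
    have h4 := coord_le_ne BA (Y - U) i
    rw [map_sub, Finsupp.sub_apply] at h4
    exact h4
  rw [Set.mem_preimage, hPr] at h3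
  exact h3

/-- The move, stable under small changes. -/
theorem near_eig_normed (hF : ∀ c : F, ‖algebraMap F L c‖ = ‖c‖) (hst : ∀ x : L, ‖star x‖ = ‖x‖)
    (BA : Basis (Fin N) F (Matrix (Fin 3) (Fin 3) L)) {G : Matrix (Fin 3) (Fin 3) L}
    (hG : Gᴴ = G) (hd : G.det ≠ 0) {s₀ t : L} (hs₀ : star s₀ ≠ s₀) (ht : star t = t)
    (ht0 : t ≠ 0) (ht4 : t ^ 4 ≠ 1) {a b : Fin 3 → L} (haa : hf G a a = 0) (hbb : hf G b b = 0)
    (hab : hf G a b = 1) {Z W₀ : Matrix (Fin 3) (Fin 3) L} (hZ : Zᴴ * G * Z = G)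
    (hW₀ : W₀ᴴ * G * W₀ = G) (hZ2 : ∀ α β γ : L, α • (Z * Z) + β • Z + γ • 1 = 0 → α = 0)
    (hW2 : ∀ c : L, W₀ ≠ c • 1) (hdet : Z.det = W₀.det) :
    ∃ (U : Matrix (Fin 3) (Fin 3) L) (δ : ℝ), Uᴴ * G * U = G ∧ U.det = 1 ∧ 0 < δ ∧
      ∀ Y : Matrix (Fin 3) (Fin 3) L, Yᴴ * G * Y = G → Y.det = 1 → ne BA (Y - U) < δ →
        GoodEig (Y * Z * Y⁻¹ * W₀⁻¹) := by
  obtain ⟨U, θ, e, hU, hUd, he0, h1, h2, hUe⟩ := exists_move' hG hd hs₀ ht ht0 ht4 haa hbb hab hZ
    hW₀ hZ2 hW2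
  have hGu : IsUnit G.det := isUnit_iff_ne_zero.2 hd
  have hW₀d : IsUnit W₀.det := isUnit_iff_ne_zero.2 (det_ne_zero_of_unitary hd hW₀)
  -- the inverse of a unitary matrix
  have hinv : ∀ Y : Matrix (Fin 3) (Fin 3) L, Yᴴ * G * Y = G → Y⁻¹ = G⁻¹ * Yᴴ * G := by
    intro Y hY
    have h3 : (G⁻¹ * Yᴴ * G) * Y = 1 := by
      calc (G⁻¹ * Yᴴ * G) * Y = G⁻¹ * (Yᴴ * G * Y) := by simp only [Matrix.mul_assoc]
        _ = 1 := by rw [hY, Matrix.nonsing_inv_mul _ hGu]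
    exact Matrix.inv_eq_left_inv h3
  let Φ : Matrix (Fin 3) (Fin 3) L → Matrix (Fin 3) (Fin 3) L := fun Y =>
    Y * Z * (G⁻¹ * Yᴴ * G) * W₀⁻¹
  have hcs : Continuous (star : L → L) := by
    have h1 : Isometry (star : L → L) := Isometry.of_dist_eq fun x y => by
      rw [dist_eq_norm, dist_eq_norm, ← star_sub, hst]
    exact h1.continuous
  have hΦ : Continuous Φ := by
    have hct : Continuous fun Y : Matrix (Fin 3) (Fin 3) L => Yᴴ := by
      refine continuous_pi fun i => continuous_pi fun j => ?_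
      exact hcs.comp ((continuous_apply i).comp (continuous_apply j))
    exact ((continuous_id.matrix_mul continuous_const).matrix_mul
      ((continuous_const.matrix_mul hct).matrix_mul continuous_const)).matrix_mul continuous_const
  have hXdet : ∀ Y : Matrix (Fin 3) (Fin 3) L, Yᴴ * G * Y = G → Y.det = 1 →
      (Y * Z * Y⁻¹ * W₀⁻¹).det = 1 := by
    intro Y hY hYd
    rw [Matrix.det_mul, Matrix.det_mul, Matrix.det_mul, Matrix.det_nonsing_inv,
      Matrix.det_nonsing_inv, hYd, Ring.inverse_one, one_mul, mul_one, hdet,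
      Ring.mul_inverse_cancel _ hW₀d]
  have hXu : (U * Z * U⁻¹ * W₀⁻¹)ᴴ * G * (U * Z * U⁻¹ * W₀⁻¹) = G :=
    isU_mul (isU_mul (isU_mul hU hZ) (isU_inv hd hU)) (isU_inv hd hW₀)
  have hev := GoodEig.eventually hst hG hd hXu (hXdet U hU hUd) ⟨θ, e, he0, h1, h2, hUe⟩
  have hΦU : Φ U = U * Z * U⁻¹ * W₀⁻¹ := by
    change U * Z * (G⁻¹ * Uᴴ * G) * W₀⁻¹ = _
    rw [hinv U hU]
  have hev2 : ∀ᶠ X1 in 𝓝 (Φ U), X1.det = 1 → GoodEig X1 := by
    rw [hΦU]
    exact hev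
  have hev' : ∀ᶠ Y in 𝓝 U, (Φ Y).det = 1 → GoodEig (Φ Y) :=
    (hΦ.continuousAt (x := U)).eventually hev2
  obtain ⟨δ, hδ, hδO⟩ := nhds_of_ne hF BA U hev'
  refine ⟨U, δ, hU, hUd, hδ, fun Y hY hYd hYδ => ?_⟩
  have h3 := hδO Y hYδ
  have h4 : Φ Y = Y * Z * Y⁻¹ * W₀⁻¹ := by
    change Y * Z * (G⁻¹ * Yᴴ * G) * W₀⁻¹ = _
    rw [hinv Y hY]
  have h5 : (Φ Y).det = 1 → GoodEig (Φ Y) := h3
  rw [h4] at h5
  exact h5 (hXdet Y hY hYd)

end normed

section spectral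

variable {F L : Type} [NontriviallyNormedField F] [ProperSpace F] [IsUltrametricDist F] [Field L]
  [StarRing L] [Algebra F L] [FiniteDimensional F L] {N : ℕ}

/-- The move, stable under small changes; no norm on the quadratic extension. -/
theorem near_eig (hfix : ∀ c : F, star (algebraMap F L c) = algebraMap F L c)
    (BA : Basis (Fin N) F (Matrix (Fin 3) (Fin 3) L)) {G : Matrix (Fin 3) (Fin 3) L}
    (hG : Gᴴ = G) (hd : G.det ≠ 0) {s₀ t : L} (hs₀ : star s₀ ≠ s₀) (ht : star t = t)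
    (ht0 : t ≠ 0) (ht4 : t ^ 4 ≠ 1) {a b : Fin 3 → L} (haa : hf G a a = 0) (hbb : hf G b b = 0)
    (hab : hf G a b = 1) {Z W₀ : Matrix (Fin 3) (Fin 3) L} (hZ : Zᴴ * G * Z = G)
    (hW₀ : W₀ᴴ * G * W₀ = G) (hZ2 : ∀ α β γ : L, α • (Z * Z) + β • Z + γ • 1 = 0 → α = 0)
    (hW2 : ∀ c : L, W₀ ≠ c • 1) (hdet : Z.det = W₀.det) :
    ∃ (U : Matrix (Fin 3) (Fin 3) L) (δ : ℝ), Uᴴ * G * U = G ∧ U.det = 1 ∧ 0 < δ ∧
      ∀ Y : Matrix (Fin 3) (Fin 3) L, Yᴴ * G * Y = G → Y.det = 1 → ne BA (Y - U) < δ →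
        GoodEig (Y * Z * Y⁻¹ * W₀⁻¹) := by
  have : Algebra.IsAlgebraic F L := Algebra.IsAlgebraic.of_finite F L
  let iN : NontriviallyNormedField L := spectralNorm.nontriviallyNormedField F L
  let _ : NormedSpace F L := spectralNorm.normedSpace F L
  have hnorm : ∀ x : L, ‖x‖ = spectralNorm F L x := fun _ => rfl
  have : IsUltrametricDist L :=
    IsUltrametricDist.isUltrametricDist_of_forall_norm_add_le_max_norm fun x y =>
      isNonarchimedean_spectralNorm x y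
  have : CompleteSpace L := FiniteDimensional.complete F L
  let e : L ≃ₐ[F] L := AlgEquiv.ofRingEquiv (f := (starRingAut : L ≃+* L)) hfix
  have he : ∀ x : L, e x = star x := fun _ => rfl
  exact near_eig_normed (fun c => spectralNorm_extends c)
    (fun x => by rw [hnorm, hnorm, ← he]; exact (spectralNorm_eq_of_equiv e x).symm)
    BA hG hd hs₀ ht ht0 ht4 haa hbb hab hZ hW₀ hZ2 hW2 hdet

end spectral

end Vale.Agent.P011.H521
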