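import Vale.Agent.P011.H521.LocModel
import Vale.Agent.P011.H521.NearEig
import Vale.Agent.P011.H521.SplInd
import Vale.Agent.P011.H74.Nonspec
import Vale.Agent.P011.H14.ModelPair
import Vale.Agent.P011.H775.Inf

/-!
The move at one nonsplit finite place.
-/

open Module NumberField IsDedekindDomain Filter Topology Matrix

set_option linter.unusedSectionVars false

namespace Vale.Agent.P011.H521

open Vale.Agent.P011.Arith Vale.Agent.P011.Even Vale.Agent.P011.Two Vale.Agent.P011.One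
  Vale.Agent.P011.H182 Vale.Agent.P011.H775 Vale.Agent.P011.H929 Vale.Agent.P011.H521.LC
  Vale.Agent.P011.H74.LCF

section reg

variable {L : Type} [Field L] [CharZero L] [StarRing L] {H : Matrix (Fin 3) (Fin 3) L}

/-- The derivative of the characteristic polynomial is invertible. -/
theorem exists_inv_dP (hH : Hᴴ = H) {W : Matrix (Fin 3) (Fin 3) L}
    (hW : Wᴴ * H * W = H) (hdet : W.det = 1) {s : L} (hs0 : s ≠ 0) (hs1 : s * s ≠ 1)
    {a b : Fin 3 → L} (haa : hf H a a = 0) (hbb : hf H b b = 0) (hab : hf H a b = 1)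
    (hWa : W *ᵥ a = s • a) (hWb : W *ᵥ b = s⁻¹ • b) :
    ∃ M : Matrix (Fin 3) (Fin 3) L, ((3 : L) • (W * W) - (2 * W.trace) • W +
      (2⁻¹ * (W.trace * W.trace - (W * W).trace)) • (1 : Matrix (Fin 3) (Fin 3) L)) * M = 1 := by
  have hab0 : hf H a b ≠ 0 := by rw [hab]; exact one_ne_zero
  obtain ⟨m, hma, hmb, hP⟩ := exists_basis hH haa hbb hab one_ne_zero
  have hWm := fix_orth hH hW hdet hs0 haa hbb hab0 hWa hWb hma hmb hP
  obtain ⟨P, hPd⟩ : ∃ P, P = ((Matrix.of ![a, m, b])ᵀ : Matrix (Fin 3) (Fin 3) L) := ⟨_, rfl⟩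
  rw [← hPd] at hP
  have hPu : IsUnit P.det := isUnit_iff_ne_zero.2 hP
  obtain ⟨Δ, hΔ⟩ : ∃ Δ : Matrix (Fin 3) (Fin 3) L, Δ = Matrix.diagonal ![s, 1, s⁻¹] := ⟨_, rfl⟩
  have hWP : W * P = P * Δ := by
    obtain ⟨c0, c1, c2⟩ := col_of a m b
    ext i j
    have hcol : (W * P) i j = (W *ᵥ P.col j) i := rfl
    rw [hcol, hΔ, Matrix.mul_diagonal]
    fin_cases j
    · simp only [Fin.zero_eta, hPd, c0, hWa]
      simp [mul_comm]
    · simp only [Fin.mk_one, hPd, c1, hWm]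
      simp
    · simp only [Fin.reduceFinMk, hPd, c2, hWb]
      simp [mul_comm]
  have hQP : P⁻¹ * P = 1 := Matrix.nonsing_inv_mul _ hPu
  have hPQ : P * P⁻¹ = 1 := Matrix.mul_nonsing_inv _ hPu
  have hWe : W = P * Δ * P⁻¹ := by
    rw [← hWP, Matrix.mul_assoc, hPQ, Matrix.mul_one]
  have hWW : W * W = P * (Δ * Δ) * P⁻¹ := by
    calc W * W = P * Δ * (P⁻¹ * P) * Δ * P⁻¹ := by
          rw [hWe]; simp only [Matrix.mul_assoc]
      _ = _ := by rw [hQP]; simp only [Matrix.mul_assoc, Matrix.one_mul]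
  have t1 : W.trace = s + 1 + s⁻¹ := by
    rw [hWe, Matrix.trace_mul_cycle, hQP, Matrix.one_mul, hΔ, Matrix.trace_fin_three]
    simp
  have t2 : (W * W).trace = s * s + 1 + s⁻¹ * s⁻¹ := by
    rw [hWW, Matrix.trace_mul_cycle, hQP, Matrix.one_mul, hΔ, Matrix.diagonal_mul_diagonal,
      Matrix.trace_fin_three]
    simp
  have hs1' : s - 1 ≠ 0 := by
    intro h
    apply hs1
    rw [sub_eq_zero.1 h, one_mul]
  have hsi : s - s⁻¹ ≠ 0 := by
    intro h
    apply hs1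
    have h3 : s = s⁻¹ := sub_eq_zero.1 h
    nth_rewrite 2 [h3]
    exact mul_inv_cancel₀ hs0
  have hsi1 : s⁻¹ - 1 ≠ 0 := by
    intro h
    apply hs1'
    rw [sub_eq_zero] at h ⊢
    exact inv_eq_one.1 h
  obtain ⟨δ, hδ⟩ : ∃ δ : Fin 3 → L, δ = ![(s - 1) * (s - s⁻¹), (1 - s) * (1 - s⁻¹),
      (s⁻¹ - s) * (s⁻¹ - 1)] := ⟨_, rfl⟩
  have hδ0 : ∀ i, δ i ≠ 0 := by
    intro i
    rw [hδ]
    fin_cases i
    · exact mul_ne_zero hs1' hsi
    · exact mul_ne_zero (fun h => hs1' (by linear_combination -h))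
        (fun h => hsi1 (by linear_combination -h))
    · exact mul_ne_zero (fun h => hsi (by linear_combination -h)) hsi1
  have key : (3 : L) • (W * W) - (2 * W.trace) • W +
      (2⁻¹ * (W.trace * W.trace - (W * W).trace)) • (1 : Matrix (Fin 3) (Fin 3) L) =
      P * Matrix.diagonal δ * P⁻¹ := by
    have h2 : Matrix.diagonal δ = (3 : L) • (Δ * Δ) - (2 * (s + 1 + s⁻¹)) • Δ +
        (2⁻¹ * ((s + 1 + s⁻¹) * (s + 1 + s⁻¹) - (s * s + 1 + s⁻¹ * s⁻¹))) •
          (1 : Matrix (Fin 3) (Fin 3) L) := by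
      rw [hΔ, hδ]
      ext i j
      fin_cases i <;> fin_cases j <;> simp <;> field_simp <;> ring
    rw [t1, t2, h2, hWW]
    nth_rewrite 1 [hWe]
    simp only [Matrix.mul_add, Matrix.mul_sub, Matrix.add_mul, Matrix.sub_mul, Matrix.mul_smul,
      Matrix.smul_mul, Matrix.mul_one, hPQ]
  refine ⟨P * Matrix.diagonal (fun i => (δ i)⁻¹) * P⁻¹, ?_⟩
  rw [key]
  calc P * Matrix.diagonal δ * P⁻¹ * (P * Matrix.diagonal (fun i => (δ i)⁻¹) * P⁻¹)
      = P * (Matrix.diagonal δ * (P⁻¹ * P) * Matrix.diagonal (fun i => (δ i)⁻¹)) * P⁻¹ := by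
        simp only [Matrix.mul_assoc]
    _ = P * 1 * P⁻¹ := by
        rw [hQP, Matrix.mul_one, Matrix.diagonal_mul_diagonal]
        congr 2
        rw [← Matrix.diagonal_one]
        congr 1
        funext i
        exact mul_inv_cancel₀ (hδ0 i)
    _ = 1 := by rw [Matrix.mul_one, hPQ]

end reg

variable {k K D : Type} [Field k] [NumberField k] [Field K] [StarRing K]
    [DivisionRing D] [StarRing D] [Algebra k K] [Algebra k D] [Algebra K D] [IsScalarTower k K D]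
    {d : kˣ} {s : K} {N : ℕ} {Ω : Type} [Field Ω] [Algebra K Ω]

/-- **The move at a nonsplit finite place.** -/
theorem n3_at (hS : Setting k K D d s) (hdeg : finrank K D = 3 ^ 2) (C : Cub K D)
    (f : D →ₐ[K] Matrix (Fin 3) (Fin 3) Ω) (B : Basis (Fin N) k D) (v : HeightOneSpectrum (𝓞 k))
    (hv : d ∉ LS (v.valuation k)) {z w₀ : D} (hz : z * star z = 1) (hw : w₀ * star w₀ = 1)
    (hzK : z ∉ Set.range (algebraMap K D)) (hwK : w₀ ∉ Set.range (algebraMap K D))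
    (hN : C.N z = C.N w₀) :
    ∃ (u₀ : SUD f) (δ : ℝ), 0 < δ ∧ ∀ u : SUD f,
      na B (fa v) (((u : Dˣ) : D) - ((u₀ : Dˣ) : D)) < δ →
      H3.LocPair1 C B (fa v) (((u : Dˣ) : D) * z * ((u : Dˣ) : D)⁻¹ * w₀⁻¹) := by
  classical
  have := hS.fin
  have := hS.cen
  obtain ⟨F, L, _, _, _, _, _, _, _, _, G, BA, I, ρ, h, hF0, hL0, hfin, hfix, ⟨s₀, hs₀⟩, hGs,
    hGd, hI, ⟨a, b, haa, hbb, hab⟩, hden, hSU⟩ := exists_loc hS hdeg B v hv f
  have hGu : IsUnit G.det := isUnit_iff_ne_zero.2 hGd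
  have hGG : G * G⁻¹ = 1 := Matrix.mul_nonsing_inv _ hGu
  have hGG' : G⁻¹ * G = 1 := Matrix.nonsing_inv_mul _ hGu
  obtain ⟨hT, hDet, -⟩ := Cub.of_split C hdeg ρ
  have hfix' : ∀ c : F, star (algebraMap F L c) = algebraMap F L c := fun c =>
    (hfix _).mpr ⟨c, rfl⟩
  -- conversion of the unitarity
  have conv : ∀ Y : Matrix (Fin 3) (Fin 3) L, I.τ Y * Y = 1 ↔ Yᴴ * G * Y = G := by
    intro Y
    rw [hI]
    constructor
    · intro h
      calc Yᴴ * G * Y = G * (G⁻¹ * Yᴴ * G * Y) := by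
            simp only [← Matrix.mul_assoc, hGG, Matrix.one_mul]
        _ = G := by rw [h, Matrix.mul_one]
    · intro h
      calc G⁻¹ * Yᴴ * G * Y = G⁻¹ * (Yᴴ * G * Y) := by simp only [Matrix.mul_assoc]
        _ = 1 := by rw [h, hGG']
  have hst : ∀ y : D, I.τ (ρ y) = ρ (star y) := h.star
  have uni : ∀ y : D, y * star y = 1 → (ρ y)ᴴ * G * ρ y = G := by
    intro y hy
    have h1 : star y * y = 1 := mul_eq_one_comm.mp hy
    rw [← conv, hst, ← map_mul, h1, map_one]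
  have hZu := uni z hz
  have hWu := uni w₀ hw
  have hZ2 : ∀ α β γ : L, α • (ρ z * ρ z) + β • ρ z + γ • 1 = 0 → α = 0 := fun α β γ h0 =>
    (no_quad_split hdeg ρ hzK h0).1
  have hW2 : ∀ c : L, ρ w₀ ≠ c • 1 := by
    intro c h0
    have h1 := no_quad_split hdeg ρ hwK (α := 0) (β := 1) (γ := -c) (by
      rw [h0, zero_smul, one_smul, zero_add, neg_smul, add_neg_cancel])
    exact one_ne_zero h1.2.1
  have hdet : (ρ z).det = (ρ w₀).det := by rw [hDet, hDet, hN]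
  have ht : star (2 : L) = 2 := star_ofNat 2
  have ht4 : (2 : L) ^ 4 ≠ 1 := by norm_num
  obtain ⟨U, δ, hU, hUd, hδ, hgood⟩ := near_eig hfix' BA hGs hGd hs₀ ht two_ne_zero ht4 haa hbb
    hab hZu hWu hZ2 hW2 hdet
  -- the global element near the local one
  have hU1 : I.τ U * U = 1 := (conv U).2 hU
  have hU2 : U * I.τ U = 1 := mul_eq_one_comm.mp hU1
  let Uu : (Matrix (Fin 3) (Fin 3) L)ˣ := ⟨U, I.τ U, hU2, hU1⟩
  have hUg : Uu ∈ I.grp := hU2
  let T : UT BA I := ⟨Uu, hUg⟩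
  have hTcl : T ∈ h.cl f := hSU T hUd
  obtain ⟨t, htS, htn⟩ : ∃ t ∈ SUu f, ne BA (ρ (t : D) - U) < δ / 2 := by
    have hc : Continuous fun T' : UT BA I => ne BA ((LinearMap.id : _ →ₗ[F] _) T'.val - U) :=
      continuous_ne BA I LinearMap.id U
    have hO : {T' : UT BA I | ne BA ((LinearMap.id : _ →ₗ[F] _) T'.val - U) < δ / 2} ∈ 𝓝 T := by
      refine (isOpen_lt hc continuous_const).mem_nhds ?_
      have h1 : ne BA (U - U) = 0 := by
        rw [sub_self]
        simp [H182.ne]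
      change ne BA (U - U) < δ / 2
      rw [h1]
      exact half_pos hδ
    have hcl : T ∈ closure (((SUu f).map h.gU : Subgroup (UT BA I)) : Set (UT BA I)) := hTcl
    rw [mem_closure_iff_nhds] at hcl
    obtain ⟨_, h1, t, ht1, rfl⟩ := hcl _ hO
    exact ⟨t, ht1, h1⟩
  have htu : (t : D) * star (t : D) = 1 := Unitary.mul_star_self_of_mem t.2
  have htu' : star (t : D) * (t : D) = 1 := Unitary.star_mul_self_of_mem t.2
  have htd : (f (t : D)).det = 1 := htS.2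
  let u₀ : SUD f := ⟨⟨(t : D), star (t : D), htu, htu'⟩, htu, htd⟩
  refine ⟨u₀, δ / 2, half_pos hδ, fun u hu => ?_⟩
  obtain ⟨⟨x, xi, hx1, hx2⟩, hxu, hxd⟩ := u
  change na B (fa v) (x - (t : D)) < δ / 2 at hu
  change H3.LocPair1 C B (fa v) (x * z * x⁻¹ * w₀⁻¹)
  change x * star x = 1 at hxu
  change (f x).det = 1 at hxd
  have hx0 : x ≠ 0 := by
    rintro rfl
    rw [zero_mul] at hxu
    exact zero_ne_one hxu
  have hw0 : w₀ ≠ 0 := by
    rintro rfl
    rw [zero_mul] at hw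
    exact zero_ne_one hw
  have hinv : ∀ y : D, y ≠ 0 → ρ y⁻¹ = (ρ y)⁻¹ := by
    intro y hy
    have h1 : ρ y⁻¹ * ρ y = 1 := by rw [← map_mul, inv_mul_cancel₀ hy, map_one]
    exact (Matrix.inv_eq_left_inv h1).symm
  have hNx : C.N x = 1 := by
    obtain ⟨-, hDf, -⟩ := Cub.of_split C hdeg f
    apply (algebraMap K Ω).injective
    rw [← hDf, hxd, map_one]
  have hXu := uni x hxu
  have hXd : (ρ x).det = 1 := by rw [hDet, hNx, map_one]
  have hXn : ne BA (ρ x - U) < δ := by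
    have h1 : ρ x - U = ρ (x - (t : D)) + (ρ (t : D) - U) := by rw [map_sub]; abel
    have h2 : ne BA (ρ (x - (t : D))) = na B (fa v) (x - (t : D)) := h.ne _
    rw [h1]
    refine (ne_add_le BA _ _).trans_lt ?_
    rw [h2]
    linarith
  obtain ⟨y, hy⟩ : ∃ y, y = x * z * x⁻¹ * w₀⁻¹ := ⟨_, rfl⟩
  have hρy : ρ y = ρ x * ρ z * (ρ x)⁻¹ * (ρ w₀)⁻¹ := by
    rw [hy, map_mul, map_mul, map_mul, hinv _ hx0, hinv _ hw0]
  have hyu : (ρ y)ᴴ * G * ρ y = G := by
    rw [hρy]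
    exact isU_mul (isU_mul (isU_mul hXu hZu) (isU_inv hGd hXu)) (isU_inv hGd hWu)
  have hW₀d : IsUnit (ρ w₀).det := isUnit_iff_ne_zero.2 (det_ne_zero_of_unitary hGd hWu)
  have hyd : (ρ y).det = 1 := by
    rw [hρy, Matrix.det_mul, Matrix.det_mul, Matrix.det_mul, Matrix.det_nonsing_inv,
      Matrix.det_nonsing_inv, hXd, Ring.inverse_one, one_mul, mul_one, hdet,
      Ring.mul_inverse_cancel _ hW₀d]
  obtain ⟨θ, e, he0, h1, h2, hye⟩ := hgood (ρ x) hXu hXd hXn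
  rw [← hρy] at hye
  obtain ⟨Gm, W, hGm, hGmd, hW, hWd, hpair, ⟨a1, b1, q1, q2, q3, q4, q5⟩, hns⟩ :=
    exists_comm' hGs hGd hyu hyd hye he0 h1 h2 ht two_ne_zero ht4
  obtain ⟨M, hM⟩ := exists_inv_dP hGs hW hWd two_ne_zero (by norm_num) q1 q2 q3 q4 q5
  let TE : Matrix (Fin 3) (Fin 3) L →ₗ[F] Matrix (Fin 3) (Fin 3) L :=
    { toFun := fun Y => Y.trace • 1
      map_add' := fun Y Z => by rw [Matrix.trace_add, add_smul]
      map_smul' := fun c Y => by rw [Matrix.trace_smul, RingHom.id_apply, smul_assoc] }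
  have hTE : ∀ Y : Matrix (Fin 3) (Fin 3) L, TE Y = Y.trace • 1 := fun _ => rfl
  rw [← hy]
  refine H14.locPair1_of_model C h hden (NormedField.exists_one_lt_norm F) TE ?_ (W := W)
    (G := Gm) (M := M) ((conv W).2 hW) ((conv Gm).2 hGm) hpair ?_ ?_
  · intro y
    change (ρ y).trace • (1 : Matrix (Fin 3) (Fin 3) L) = ρ (C.T y • (1 : D))
    rw [hT, map_smul, map_one, algebraMap_smul]
  · rw [← hM]
    congr 1
    rw [hTE, hTE, smul_mul_assoc, one_mul, smul_mul_smul_comm, one_mul]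
    have e3 : (3 : F) • (W * W) = (3 : L) • (W * W) := by
      rw [← algebraMap_smul L (3 : F) (W * W), map_ofNat]
    have e2 : (2 : F) • (W.trace • W) = (2 * W.trace) • W := by
      rw [← algebraMap_smul L (2 : F) (W.trace • W), map_ofNat, smul_smul]
    have e1 : (2⁻¹ : F) • ((W.trace * W.trace) • (1 : Matrix (Fin 3) (Fin 3) L) -
        (W * W).trace • 1) = (2⁻¹ * (W.trace * W.trace - (W * W).trace)) • 1 := by
      rw [← sub_smul, ← algebraMap_smul L (2⁻¹ : F), smul_smul, map_inv₀, map_ofNat]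
    rw [e3, e2, e1]
  · intro hmem
    have hle : Submodule.span F (Set.range fun e : K => (ρ : D →+* _) (e • (y⁻¹ - 1))) ≤
        (Submodule.span L {(ρ y)⁻¹ - 1}).restrictScalars F := by
      rw [Submodule.span_le]
      rintro _ ⟨e, rfl⟩
      change ρ (e • (y⁻¹ - 1)) ∈ Submodule.span L {(ρ y)⁻¹ - 1}
      have hy0 : y ≠ 0 := by
        rw [hy]
        refine mul_ne_zero (mul_ne_zero (mul_ne_zero hx0 ?_) (inv_ne_zero hx0))
          (inv_ne_zero hw0)
        rintro rfl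
        rw [zero_mul] at hz
        exact zero_ne_one hz
      rw [map_smul, map_sub, map_one, hinv _ hy0, ← algebraMap_smul L e]
      exact Submodule.smul_mem _ _ (Submodule.mem_span_singleton_self _)
    have h3 := hle hmem
    rw [Submodule.restrictScalars_mem, Submodule.mem_span_singleton] at h3
    obtain ⟨e, he⟩ := h3
    exact hns e he.symm

end Vale.Agent.P011.H521
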