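import Vale.Agent.P011.H3.Siz
import Vale.Agent.P011.H14.Glob
import Vale.Agent.P011.H748.LineLim
import Vale.Agent.P011.H63.SplitNF
import Vale.Agent.P011.H521.NearEig
import Vale.Agent.P011.One.SplitLT

/-!
# Components of the centre of the division algebra over a place, number fields

The size of an element of `K` measured in `D` is comparable to its absolute value at the place of
`K` above `v`, if there is only one, and to the sum of the two absolute values otherwise.
Approximation of elements of norm one of `K`.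
-/

open Module Topology Filter NumberField IsDedekindDomain

set_option linter.unusedSectionVars false

namespace Vale.Agent.P011.H521

open Vale.Agent.P011.Arith Vale.Agent.P011.Even Vale.Agent.P011.Two Vale.Agent.P011.One
  Vale.Agent.P011.H3
open Vale.Agent.P011.H182 (na Ig na_mul na_nonneg na_add_le na_sub_le na_zero na_pos na_const
  coord_le_na na_smul na_neg)

variable {k K D : Type} [Field k] [NumberField k] [Field K] [StarRing K] [DivisionRing D]
  [StarRing D] [Algebra k K] [Algebra k D] [Algebra K D] [IsScalarTower k K D] {d : kˣ} {s : K}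
  {N : ℕ}

theorem star_cen (hS : Setting k K D d s) (x : k) :
    star (algebraMap k K x) = algebraMap k K x := (hS.fix _).mpr ⟨x, rfl⟩

theorem star_smulk (hS : Setting k K D d s) (c : k) (x : D) : star (c • x) = c • star x :=
  (Setting.sig hS).map_smul c x

theorem two_K (_hS : Setting k K D d s) : (2 : K) ≠ 0 := by
  rw [← map_ofNat (algebraMap k K) 2]
  exact (map_ne_zero _).mpr two_ne_zero

theorem exists_coord (hS : Setting k K D d s) (x : K) : ∃ p q : k,
    x = algebraMap k K p + algebraMap k K q * s ∧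
      star x = algebraMap k K p - algebraMap k K q * s := by
  have h2 := two_K hS
  have hs := hS.s_ne
  have hst2 : star (2 : K) = 2 := by
    rw [← map_ofNat (algebraMap k K) 2]
    exact star_cen hS 2
  obtain ⟨p, hp⟩ := (hS.fix ((x + star x) / 2)).mp (by
    rw [star_div₀, star_add, star_star, add_comm, hst2])
  obtain ⟨q, hq⟩ := (hS.fix ((x - star x) / (2 * s))).mp (by
    rw [star_div₀, star_sub, star_star, star_mul, hS.star_s, hst2]
    field_simp
    ring)
  refine ⟨p, q, ?_, ?_⟩
  · rw [hp, hq]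
    field_simp
    ring
  · rw [hp, hq]
    field_simp
    ring

theorem coord_unique (hS : Setting k K D d s) {p q p' q' : k}
    (h : algebraMap k K p + algebraMap k K q * s = algebraMap k K p' + algebraMap k K q' * s) :
    p = p' ∧ q = q' := by
  have h2 := two_K hS
  have hs := hS.s_ne
  have h1 := congrArg star h
  rw [star_add, star_add, star_mul, star_mul, hS.star_s, star_cen hS, star_cen hS,
    star_cen hS, star_cen hS] at h1
  have h3 : 2 * algebraMap k K p = 2 * algebraMap k K p' := by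
    linear_combination h + h1
  have h4 : 2 * s * algebraMap k K q = 2 * s * algebraMap k K q' := by
    linear_combination h - h1
  exact ⟨(algebraMap k K).injective (mul_left_cancel₀ h2 h3),
    (algebraMap k K).injective (mul_left_cancel₀ (mul_ne_zero h2 hs) h4)⟩

section core

variable (B : Basis (Fin N) k D) (a : AbsoluteValue k ℝ) {L : Type} [NormedField L] (φ : K →+* L)

theorem le_of (hS : Setting k K D d s) (hφ : ∀ c : k, ‖φ (algebraMap k K c)‖ = a c) :
    ∃ c : ℝ, 0 < c ∧ ∀ x : K, ‖φ x‖ ≤ c * nK B a x := by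
  have h2 := two_K hS
  have h20 : 0 < a 2 := a.pos two_ne_zero
  obtain ⟨C, hC1, -, hCs⟩ := na_const B a (fun c x => star_smulk hS c x)
  have h1 : 0 < na B a (1 : D) := na_pos B a one_ne_zero
  have hs : 0 < na B a (algebraMap K D s) := na_pos B a (by
    rw [Ne, map_eq_zero]
    exact hS.s_ne)
  refine ⟨(1 + C) / a 2 / na B a (1 : D) + (1 + C) / a 2 / na B a (algebraMap K D s) * ‖φ s‖,
    by positivity, fun x => ?_⟩
  obtain ⟨p, q, hx, hx'⟩ := exists_coord hS x
  have hpe : (2 * p) • (1 : D) = algebraMap K D x + star (algebraMap K D x) := by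
    rw [hS.star_alg, ← map_add, ← algebraMap_smul K, ← Algebra.algebraMap_eq_smul_one]
    congr 1
    rw [hx', map_mul, map_ofNat]
    nth_rw 1 [hx]
    ring
  have hqe : (2 * q) • (algebraMap K D s) = algebraMap K D x - star (algebraMap K D x) := by
    have e : (2 * q) • (algebraMap K D s) = algebraMap K D (algebraMap k K (2 * q) * s) := by
      rw [map_mul, ← IsScalarTower.algebraMap_apply, Algebra.smul_def]
    rw [e, hS.star_alg, ← map_sub]
    congr 1
    rw [hx', map_mul, map_ofNat]
    nth_rw 1 [hx]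
    ring
  have hp1 : a p ≤ (1 + C) / a 2 / na B a (1 : D) * nK B a x := by
    have h3 : a 2 * a p * na B a (1 : D) ≤ (1 + C) * nK B a x := by
      rw [← map_mul, ← na_smul, hpe]
      refine (na_add_le _ _ _ _).trans ?_
      have := hCs (algebraMap K D x)
      rw [add_mul, one_mul]
      exact add_le_add le_rfl this
    rw [div_div, div_mul_eq_mul_div, le_div_iff₀ (by positivity)]
    linarith
  have hq1 : a q ≤ (1 + C) / a 2 / na B a (algebraMap K D s) * nK B a x := by
    have h3 : a 2 * a q * na B a (algebraMap K D s) ≤ (1 + C) * nK B a x := by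
      rw [← map_mul, ← na_smul, hqe]
      refine (na_sub_le _ _ _ _).trans ?_
      have := hCs (algebraMap K D x)
      rw [add_mul, one_mul]
      exact add_le_add le_rfl this
    rw [div_div, div_mul_eq_mul_div, le_div_iff₀ (by positivity)]
    linarith
  have h3 : ‖φ x‖ ≤ a p + a q * ‖φ s‖ := by
    conv_lhs => rw [hx]
    rw [map_add, map_mul]
    refine (norm_add_le _ _).trans ?_
    rw [norm_mul, hφ, hφ]
  refine h3.trans ?_
  rw [add_mul, mul_right_comm]
  exact add_le_add hp1 (mul_le_mul_of_nonneg_right hq1 (norm_nonneg _))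

theorem ge_of (hS : Setting k K D d s) (hφ : ∀ c : k, ‖φ (algebraMap k K c)‖ = a c) :
    ∃ c : ℝ, 0 < c ∧ ∀ x : K, nK B a x ≤ c * (‖φ x‖ + ‖φ (star x)‖) := by
  have h2 := two_K hS
  have h20 : 0 < a 2 := a.pos two_ne_zero
  have h1 : 0 < na B a (1 : D) := na_pos B a one_ne_zero
  have hs : 0 < ‖φ s‖ := norm_pos_iff.mpr ((map_ne_zero φ).mpr hS.s_ne)
  have hs' := na_nonneg B a (algebraMap K D s)
  refine ⟨na B a (1 : D) / a 2 + na B a (algebraMap K D s) / (a 2 * ‖φ s‖), by positivity,
    fun x => ?_⟩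
  obtain ⟨p, q, hx, hx'⟩ := exists_coord hS x
  have h22 : ‖φ 2‖ = a 2 := by
    rw [← map_ofNat (algebraMap k K) 2]
    exact hφ 2
  have hp : a 2 * a p ≤ ‖φ x‖ + ‖φ (star x)‖ := by
    rw [← h22, ← hφ p, ← norm_mul, ← map_mul]
    have e : 2 * algebraMap k K p = x + star x := by
      rw [hx']
      nth_rw 1 [hx]
      ring
    rw [e, map_add]
    exact norm_add_le _ _
  have hq : a 2 * ‖φ s‖ * a q ≤ ‖φ x‖ + ‖φ (star x)‖ := by
    rw [← h22, ← hφ q, ← norm_mul, ← norm_mul, ← map_mul, ← map_mul]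
    have e : 2 * s * algebraMap k K q = x - star x := by
      rw [hx']
      nth_rw 1 [hx]
      ring
    rw [e, map_sub]
    exact norm_sub_le _ _
  have h3 : nK B a x ≤ a p * na B a (1 : D) + a q * na B a (algebraMap K D s) := by
    have e : algebraMap K D x = p • (1 : D) + q • algebraMap K D s := by
      conv_lhs => rw [hx]
      rw [map_add, map_mul, ← IsScalarTower.algebraMap_apply, ← IsScalarTower.algebraMap_apply,
        Algebra.algebraMap_eq_smul_one, Algebra.smul_def q]
    rw [nK, e]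
    refine (na_add_le _ _ _ _).trans ?_
    rw [na_smul, na_smul]
  have h4 : a p ≤ (‖φ x‖ + ‖φ (star x)‖) / a 2 := by
    rw [le_div_iff₀ h20]
    linarith
  have h5 : a q ≤ (‖φ x‖ + ‖φ (star x)‖) / (a 2 * ‖φ s‖) := by
    rw [le_div_iff₀ (by positivity)]
    linarith
  refine h3.trans ?_
  rw [add_mul]
  refine add_le_add ?_ ?_
  · calc a p * na B a (1 : D) ≤ (‖φ x‖ + ‖φ (star x)‖) / a 2 * na B a (1 : D) :=
        mul_le_mul_of_nonneg_right h4 h1.le
      _ = _ := by ring
  · calc a q * na B a (algebraMap K D s) ≤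
          (‖φ x‖ + ‖φ (star x)‖) / (a 2 * ‖φ s‖) * na B a (algebraMap K D s) :=
        mul_le_mul_of_nonneg_right h5 hs'
      _ = _ := by ring

theorem sz_norm : Sz fun x : K => ‖φ x‖ where
  nonneg x := norm_nonneg _
  zero := by rw [map_zero, norm_zero]
  one := by rw [map_one, norm_one]; exact one_pos
  add x y := by rw [map_add]; exact norm_add_le _ _
  mul := ⟨1, one_pos, fun x y => by rw [map_mul, norm_mul, one_mul]⟩
  low := ⟨1, one_pos, fun x y => by rw [map_mul, norm_mul, one_mul]⟩

/-- The components, when there is one place of `K` above `a`. -/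
theorem comps_one (hS : Setting k K D d s) (hφ : ∀ c : k, ‖φ (algebraMap k K c)‖ = a c)
    (hst : ∀ x : K, ‖φ (star x)‖ = ‖φ x‖) : Comps B a fun _ : Unit => nK (K := K) B a := by
  obtain ⟨c1, hc1, h1⟩ := le_of B a φ hS hφ
  obtain ⟨c2, hc2, h2⟩ := ge_of B a φ hS hφ
  obtain ⟨C, hC1, hCm⟩ := na_mul B a
  refine ⟨inferInstance, fun _ => ⟨fun x => na_nonneg _ _ _, ?_, ?_, fun x y => ?_, ?_, ?_⟩,
    ⟨1, one_pos, fun _ x => by rw [one_mul]⟩, ⟨1, one_pos, fun x => ?_⟩⟩
  · rw [nK, map_zero, na_zero]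
  · rw [nK, map_one]
    exact na_pos B a one_ne_zero
  · rw [nK, map_add]
    exact na_add_le _ _ _ _
  · refine ⟨C, by linarith, fun x y => ?_⟩
    rw [nK, map_mul, ← mul_assoc]
    exact hCm _ _
  · refine ⟨c2 * 2 * (c2 * 2) * c1, by positivity, fun x y => ?_⟩
    have h3 : nK B a x ≤ c2 * 2 * ‖φ x‖ := by
      have := h2 x
      rw [hst] at this
      linarith
    have h4 : nK B a y ≤ c2 * 2 * ‖φ y‖ := by
      have := h2 y
      rw [hst] at this
      linarith
    have h5 := h1 (x * y)
    rw [map_mul, norm_mul] at h5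
    calc nK B a x * nK B a y ≤ (c2 * 2 * ‖φ x‖) * (c2 * 2 * ‖φ y‖) :=
          mul_le_mul h3 h4 (na_nonneg _ _ _) (by positivity)
      _ = c2 * 2 * (c2 * 2) * (‖φ x‖ * ‖φ y‖) := by ring
      _ ≤ c2 * 2 * (c2 * 2) * (c1 * nK B a (x * y)) :=
          mul_le_mul_of_nonneg_left h5 (by positivity)
      _ = _ := by ring
  · rw [one_mul, Finset.univ_unique, Finset.sum_singleton]

/-- The components, when there are two places of `K` above `a`. -/
theorem comps_two (hS : Setting k K D d s) (hφ : ∀ c : k, ‖φ (algebraMap k K c)‖ = a c) :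
    Comps B a fun (i : Bool) (x : K) => cond i ‖φ x‖ ‖φ (star x)‖ := by
  obtain ⟨c1, hc1, h1⟩ := le_of B a φ hS hφ
  obtain ⟨c2, hc2, h2⟩ := ge_of B a φ hS hφ
  obtain ⟨c3, hc3, h3⟩ := le_of B a (φ.comp (starRingEnd K)) hS (fun c => by
    rw [RingHom.comp_apply, starRingEnd_apply, star_cen hS, hφ])
  refine ⟨inferInstance, fun i => ?_, ⟨c1 + c3, by positivity, fun i x => ?_⟩,
    ⟨c2, hc2, fun x => ?_⟩⟩
  · cases i
    · exact sz_norm (φ.comp (starRingEnd K))
    · exact sz_norm φ
  · have h0 : 0 ≤ nK B a x := na_nonneg _ _ _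
    cases i
    · refine (h3 x).trans ?_
      nlinarith
    · refine (h1 x).trans ?_
      nlinarith
  · rw [Fintype.sum_bool]
    exact h2 x

end core

section places

omit [Algebra k D] [IsScalarTower k K D] in
/-- Extension of an embedding of `k` to `K`. -/
theorem exists_ext (hS : Setting k K D d s) {F : Type} [Field F] (φ : k →+* F) {θ : F}
    (hθ : θ ^ 2 = φ (d : k)) :
    ∃ ψ : K →+* F, (∀ c, ψ (algebraMap k K c) = φ c) ∧ ψ s = θ := by
  let _ : Algebra k F := φ.toAlgebra
  obtain ⟨ψ, h⟩ := exists_hom (L := F) hS.ns hS.sq hS.span (sL := θ) hθ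
  exact ⟨ψ, fun c => ψ.commutes c, h⟩

/-- **One component at a nonsplit finite place.** -/
theorem comps_nonsplit (hS : Setting k K D d s) (B : Basis (Fin N) k D)
    {v : HeightOneSpectrum (𝓞 k)} (hv : d ∉ LS (v.valuation k)) :
    Comps B (plAbv (Sum.inl v)) fun _ : Unit => nK (K := K) B (plAbv (Sum.inl v)) := by
  have hd : ¬ IsSquare (algebraMap k (v.adicCompletion k) (d : k)) := fun h0 =>
    hv ((isSquare_iff v d).mp h0)
  let F := v.adicCompletion k
  let iF : NontriviallyNormedField F := nnf v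
  have : IsUltrametricDist F := isUltra v
  let dF : F := algebraMap k F (d : k)
  have := fact_of_not_square hd
  let L := QuadraticAlgebra F dF 0
  have hL2 : Module.finrank F L = 2 := QuadraticAlgebra.finrank_eq_two _ _
  have : FiniteDimensional F L := Module.finite_of_finrank_pos (by rw [hL2]; norm_num)
  have : Algebra.IsAlgebraic F L := Algebra.IsAlgebraic.of_finite F L
  let iN : NontriviallyNormedField L := spectralNorm.nontriviallyNormedField F L
  have hnorm : ∀ x : L, ‖x‖ = spectralNorm F L x := fun _ => rfl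
  let sL : L := ⟨0, 1⟩
  have hsL : sL ^ 2 = algebraMap F L dF := omega_sq' dF
  obtain ⟨ψ, hψ, hψs⟩ := exists_ext hS ((algebraMap F L).comp (algebraMap k F)) (θ := sL) hsL
  let e : L ≃ₐ[F] L := AlgEquiv.ofRingEquiv (f := (starRingAut : L ≃+* L))
    fun c => (fix_qa _).mpr ⟨c, rfl⟩
  have he : ∀ x : L, e x = star x := fun _ => rfl
  have hst : ∀ x : K, ψ (star x) = star (ψ x) := by
    intro x
    obtain ⟨a, b, hx, hx'⟩ := exists_coord hS x
    have h1 : ∀ c : k, star (ψ (algebraMap k K c)) = ψ (algebraMap k K c) := by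
      intro c
      rw [hψ]
      exact (fix_qa _).mpr ⟨_, rfl⟩
    have h2 : star (ψ s) = -ψ s := by
      rw [hψs]
      exact Even.star_omega
    rw [hx', map_sub, map_mul]
    conv_rhs => rw [hx]
    rw [map_add, map_mul, star_add, star_mul, h1, h1, h2]
    ring
  refine comps_one B (plAbv (Sum.inl v)) ψ hS (fun c => ?_) fun x => ?_
  · rw [hψ, hnorm]
    change spectralNorm F L (algebraMap F L (algebraMap k F c)) = _
    rw [spectralNorm_extends]
    exact norm_algebraMap_eq v c
  · rw [hst, hnorm, hnorm, ← he]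
    exact (spectralNorm_eq_of_equiv e (ψ x)).symm

/-- **One component at a real place at which `K` is complex.** -/
theorem comps_real (hS : Setting k K D d s) (B : Basis (Fin N) k D) {φ : k →+* ℝ}
    (hφ : d ∉ LSR φ) :
    Comps B (plAbv (Sum.inr φ)) fun _ : Unit => nK (K := K) B (plAbv (Sum.inr φ)) := by
  have hd : φ (d : k) ≤ 0 := by
    rw [mem_LSR, not_lt] at hφ
    exact hφ
  obtain ⟨r, hr⟩ : ∃ r : ℝ, r ^ 2 = -φ (d : k) := ⟨√(-φ (d : k)), Real.sq_sqrt (by linarith)⟩
  have hθ : (Complex.I * r) ^ 2 = (Complex.ofRealHom.comp φ) (d : k) := by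
    rw [mul_pow, Complex.I_sq, ← Complex.ofReal_pow, hr, RingHom.comp_apply]
    simp
  obtain ⟨ψ, hψ, hψs⟩ := exists_ext hS (Complex.ofRealHom.comp φ) hθ
  refine comps_one B (plAbv (Sum.inr φ)) ψ hS (fun c => ?_) fun x => ?_
  · rw [hψ, RingHom.comp_apply, plAbv_inr]
    exact Complex.norm_real _
  · obtain ⟨a, b, hx, hx'⟩ := exists_coord hS x
    have e : ψ (star x) = starRingEnd ℂ (ψ x) := by
      rw [hx', map_sub, map_mul]
      conv_rhs => rw [hx]
      rw [map_add, map_mul, map_add, map_mul, hψ, hψ, hψs, RingHom.comp_apply,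
        RingHom.comp_apply, map_mul, Complex.conj_I]
      change _ = starRingEnd ℂ ((φ a : ℝ) : ℂ) + starRingEnd ℂ ((φ b : ℝ) : ℂ) *
        (-Complex.I * starRingEnd ℂ (r : ℂ))
      rw [Complex.conj_ofReal, Complex.conj_ofReal, Complex.conj_ofReal]
      change ((φ a : ℝ) : ℂ) - ((φ b : ℝ) : ℂ) * (Complex.I * r) = _
      ring
    rw [e]
    exact Complex.norm_conj _

/-- **Two components at a split finite place.** -/
theorem comps_split (hS : Setting k K D d s) (B : Basis (Fin N) k D)
    {v : HeightOneSpectrum (𝓞 k)} (hv : d ∈ LS (v.valuation k)) :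
    ∃ b : Bool → K → ℝ, Comps B (plAbv (Sum.inl v)) b := by
  obtain ⟨θ, hθ⟩ := (isSquare_iff v d).mpr hv
  obtain ⟨ψ, hψ, -⟩ := exists_ext hS (algebraMap k (v.adicCompletion k)) (θ := θ) (by
    rw [hθ, sq])
  exact ⟨_, comps_two B (plAbv (Sum.inl v)) ψ hS fun c => by
    rw [hψ]
    exact norm_algebraMap_eq v c⟩

omit [StarRing D] [Algebra k D] [IsScalarTower k K D] [StarRing K] in
theorem tdiv_split' (hsq : s ^ 2 = algebraMap k K (d : k)) {v : HeightOneSpectrum (𝓞 k)}
    (hv : (Sum.inl v : Pl k) ∈ Tdiv k K D) : d ∈ LS (v.valuation k) := by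
  obtain ⟨v', hv', φ, -⟩ := hv
  obtain rfl : v = v' := Sum.inl_injective hv'
  refine (isSquare_iff v d).mp ⟨φ s, ?_⟩
  rw [← sq, ← map_pow, hsq, AlgHom.commutes]

theorem tdiv_split (hS : Setting k K D d s) {v : HeightOneSpectrum (𝓞 k)}
    (hv : (Sum.inl v : Pl k) ∈ Tdiv k K D) : d ∈ LS (v.valuation k) := tdiv_split' hS.sq hv

omit [Algebra k D] in
/-- Split places outside a finite set. -/
theorem exists_split_place (d : kˣ) {F : Set (HeightOneSpectrum (𝓞 k))} (hF : F.Finite) :
    ∃ q ∉ F, d ∈ LS (q.valuation k) := H63.exists_ls d F hF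

/-- **Approximation in the elements of norm one of `K`.** -/
theorem k1_approx (hS : Setting k K D d s) (B : Basis (Fin N) k D) {P : Set (Pl k)}
    (hP : P.Finite) (l : Pl k → K) (hl : ∀ p ∈ P, l p * star (l p) = 1) {ε : ℝ} (hε : 0 < ε) :
    ∃ c : K, c * star c = 1 ∧ ∀ p ∈ P, nK B (plAbv p) (c - l p) < ε := by
  classical
  rcases P.eq_empty_or_nonempty with rfl | ⟨p0, hp0⟩
  · exact ⟨1, by rw [star_one, mul_one], fun p hp => absurd hp (Set.notMem_empty p)⟩
  -- Hilbert 90
  have h90 : ∀ p, p ∈ P → ∃ y : K, y ≠ 0 ∧ l p * star y = y := by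
    intro p hp
    by_cases h1 : 1 + l p = 0
    · refine ⟨s, hS.s_ne, ?_⟩
      rw [hS.star_s, eq_neg_of_add_eq_zero_right h1]
      ring
    · refine ⟨1 + l p, h1, ?_⟩
      rw [star_add, star_one, mul_add, mul_one, hl p hp]
      ring
  choose! y hy0 hy using h90
  choose ya yb hyab _ using fun p => exists_coord hS (y p)
  -- the margins
  have hmar : ∀ p, ∃ δ : ℝ, 0 < δ ∧ (p ∈ P → ∀ z : K, nK B (plAbv p) (z - y p) < δ → z ≠ 0 ∧
      nK B (plAbv p) (z * (star z)⁻¹ - l p) < ε) := by
    intro p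
    by_cases hp : p ∈ P
    swap
    · exact ⟨1, one_pos, fun h => absurd h hp⟩
    have hyD : algebraMap K D (y p) ≠ 0 := (map_ne_zero _).mpr (hy0 p hp)
    have hysD : algebraMap K D (star (y p)) ≠ 0 := (map_ne_zero _).mpr (star_ne_zero.mpr (hy0 p hp))
    obtain ⟨C, hC1, -, hCs⟩ := na_const B (plAbv p) (fun c x => star_smulk hS c x)
    obtain ⟨δ1, hδ1, h1⟩ := Vale.Agent.P011.H14.near_prod B (plAbv p) (algebraMap K D (y p))
      (algebraMap K D (star (y p)))⁻¹ hε
    obtain ⟨δ2, hδ2, h2⟩ := H748.Lim.inv_cts (B := B) (a := plAbv p) hysD hδ1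
    obtain ⟨δ3, hδ3, h3⟩ := H748.Lim.inv_cts (B := B) (a := plAbv p) hyD hδ1
    have hC0 : 0 < C := by linarith
    refine ⟨min δ1 (min (δ2 / C) δ3), by positivity, fun _ z hz => ?_⟩
    have hz1 : na B (plAbv p) (algebraMap K D z - algebraMap K D (y p)) <
        min δ1 (min (δ2 / C) δ3) := by
      rw [← map_sub]
      exact hz
    have hz2 : na B (plAbv p) (algebraMap K D (star z) - algebraMap K D (star (y p))) < δ2 := by
      rw [← hS.star_alg, ← hS.star_alg, ← star_sub]
      refine (hCs _).trans_lt ?_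
      have := hz1.trans_le ((min_le_right _ _).trans (min_le_left _ _))
      rw [lt_div_iff₀ hC0] at this
      linarith
    obtain ⟨hz0, -⟩ := h3 _ (hz1.trans_le ((min_le_right _ _).trans (min_le_right _ _)))
    obtain ⟨-, hzi⟩ := h2 _ hz2
    refine ⟨fun h => hz0 (by rw [h, map_zero]), ?_⟩
    have h4 := h1 _ _ (hz1.trans_le (min_le_left _ _)) hzi
    have e : l p = y p * (star (y p))⁻¹ := by
      rw [← hy p hp]
      nth_rw 2 [hy p hp]
      rw [mul_assoc, mul_inv_cancel₀ (star_ne_zero.mpr (hy0 p hp)), mul_one]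
    rw [nK, e, map_sub, map_mul, map_mul, map_inv₀, map_inv₀]
    exact h4
  choose δ hδ hδ' using hmar
  obtain ⟨W, hW⟩ : ∃ W : Pl k → ℝ, W = fun p =>
    na B (plAbv p) (1 : D) + na B (plAbv p) (algebraMap K D s) := ⟨_, rfl⟩
  have hW0 : ∀ p, 0 < W p := fun p => by
    have h1 : 0 < na B (plAbv p) (1 : D) := na_pos B (plAbv p) one_ne_zero
    have h2 : 0 ≤ na B (plAbv p) (algebraMap K D s) := na_nonneg B (plAbv p) _
    rw [hW]
    positivity
  obtain ⟨a, ha⟩ := approx P hP ya (fun p => δ p / W p) fun p => div_pos (hδ p) (hW0 p)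
  obtain ⟨b, hb⟩ := approx P hP yb (fun p => δ p / W p) fun p => div_pos (hδ p) (hW0 p)
  obtain ⟨z, hz⟩ : ∃ z : K, z = algebraMap k K a + algebraMap k K b * s := ⟨_, rfl⟩
  have hzp : ∀ p ∈ P, nK B (plAbv p) (z - y p) < δ p := by
    intro p hp
    have h1 := ha p hp
    have h2 := hb p hp
    have e : algebraMap K D (z - y p) = (a - ya p) • (1 : D) + (b - yb p) • algebraMap K D s := by
      rw [← Algebra.algebraMap_eq_smul_one, Algebra.smul_def, IsScalarTower.algebraMap_apply k K D,
        IsScalarTower.algebraMap_apply k K D, ← map_mul, ← map_add]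
      congr 1
      rw [hz, hyab p, map_sub, map_sub]
      ring
    have h3 : 0 < na B (plAbv p) (1 : D) := na_pos B (plAbv p) one_ne_zero
    have h4 : 0 ≤ na B (plAbv p) (algebraMap K D s) := na_nonneg B (plAbv p) _
    have hWp : W p = na B (plAbv p) (1 : D) + na B (plAbv p) (algebraMap K D s) := by rw [hW]
    rw [nK, e]
    refine (na_add_le _ _ _ _).trans_lt ?_
    rw [na_smul, na_smul]
    calc plAbv p (a - ya p) * na B (plAbv p) (1 : D) +
          plAbv p (b - yb p) * na B (plAbv p) (algebraMap K D s)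
        < δ p / W p * na B (plAbv p) (1 : D) + δ p / W p * na B (plAbv p) (algebraMap K D s) :=
          add_lt_add_of_lt_of_le (mul_lt_mul_of_pos_right h1 h3)
            (mul_le_mul_of_nonneg_right h2.le h4)
      _ = δ p / W p * W p := by rw [hWp]; ring
      _ = δ p := div_mul_cancel₀ _ (hW0 p).ne'
  obtain ⟨hz0, -⟩ := hδ' p0 hp0 z (hzp p0 hp0)
  have hzs : star z ≠ 0 := star_ne_zero.mpr hz0
  refine ⟨z * (star z)⁻¹, ?_, fun p hp => (hδ' p hp z (hzp p hp)).2⟩
  rw [star_mul, star_inv₀, star_star]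
  field_simp

end places

end Vale.Agent.P011.H521
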