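import Mathlib

/-!
# Commutators in a ternary unitary group

`K` is a field with an involution, `H` a non degenerate hermitian `3 x 3` matrix.  If `X` is
unitary for `H`, of determinant one, and has an eigenvalue `θ` with `θ θ' ≠ 1`, `θ' ≠ θ`
(`θ'` the conjugate), then `X` is a commutator of two unitary matrices; the second one can be
taken with the eigenvalues `s, 1, s⁻¹`, `s` any element fixed by the involution, `s² ≠ 1`.
-/

set_option linter.unusedSectionVars false

open Matrix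

namespace Vale.Agent.P011.H521.LC

variable {K : Type*} [Field K] [StarRing K]

/-- the sesquilinear form with Gram matrix `H`, linear in the first variable -/
def hf (H : Matrix (Fin 3) (Fin 3) K) (x y : Fin 3 → K) : K := star y ⬝ᵥ (H *ᵥ x)

variable {H : Matrix (Fin 3) (Fin 3) K}

theorem hf_add_left (x x' y : Fin 3 → K) : hf H (x + x') y = hf H x y + hf H x' y := by
  simp [hf, mulVec_add, dotProduct_add]

theorem hf_sub_left (x x' y : Fin 3 → K) : hf H (x - x') y = hf H x y - hf H x' y := by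
  simp [hf, mulVec_sub, dotProduct_sub]

theorem hf_smul_left (c : K) (x y : Fin 3 → K) : hf H (c • x) y = c * hf H x y := by
  simp [hf, mulVec_smul]

theorem hf_add_right (x y y' : Fin 3 → K) : hf H x (y + y') = hf H x y + hf H x y' := by
  simp [hf, add_dotProduct]

theorem hf_sub_right (x y y' : Fin 3 → K) : hf H x (y - y') = hf H x y - hf H x y' := by
  simp [hf, sub_dotProduct]

theorem hf_smul_right (c : K) (x y : Fin 3 → K) : hf H x (c • y) = star c * hf H x y := by
  simp [hf, star_smul, smul_dotProduct]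

theorem hf_neg_right (x y : Fin 3 → K) : hf H x (-y) = - hf H x y := by
  simp [hf, neg_dotProduct]

theorem hf_zero_left (y : Fin 3 → K) : hf H 0 y = 0 := by simp [hf]

theorem star_hf (hH : Hᴴ = H) (x y : Fin 3 → K) : star (hf H x y) = hf H y x := by
  unfold hf
  rw [star_dotProduct, star_mulVec, hH, dotProduct_comm, star_star, dotProduct_comm,
    dotProduct_mulVec]

theorem hf_mulVec {X : Matrix (Fin 3) (Fin 3) K} (hX : Xᴴ * H * X = H) (x y : Fin 3 → K) :
    hf H (X *ᵥ x) (X *ᵥ y) = hf H x y := by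
  unfold hf
  rw [star_mulVec, mulVec_mulVec, ← dotProduct_mulVec, mulVec_mulVec, ← Matrix.mul_assoc, hX]

theorem eq_zero_of_hf (hd : H.det ≠ 0) {x : Fin 3 → K} (h : ∀ y, hf H x y = 0) : x = 0 := by
  have h1 : H *ᵥ x = 0 := by
    apply dotProduct_eq_zero
    intro w
    have := h (star w)
    unfold hf at this
    rw [star_star] at this
    rw [dotProduct_comm]
    exact this
  have h2 : Function.Injective H.mulVec := by
    rw [Matrix.mulVec_injective_iff_isUnit, Matrix.isUnit_iff_isUnit_det]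
    exact isUnit_iff_ne_zero.2 hd
  exact h2 (by rw [h1, mulVec_zero])

/-- the Gram matrix of a family -/
theorem gram_apply (P : Matrix (Fin 3) (Fin 3) K) (i j : Fin 3) :
    (Pᴴ * H * P) i j = hf H (P.col j) (P.col i) := by
  unfold hf
  rw [Matrix.mul_assoc, Matrix.mul_apply, dotProduct]
  refine Finset.sum_congr rfl fun l _ => ?_
  rfl

/-- a hyperbolic pair is part of an adapted basis -/
theorem exists_basis (hH : Hᴴ = H) {a b : Fin 3 → K} {c : K} (haa : hf H a a = 0)
    (hbb : hf H b b = 0) (hab : hf H a b = c) (hc : c ≠ 0) :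
    ∃ m : Fin 3 → K, hf H m a = 0 ∧ hf H m b = 0 ∧
      ((Matrix.of ![a, m, b])ᵀ : Matrix (Fin 3) (Fin 3) K).det ≠ 0 := by
  have hba : hf H b a = star c := by rw [← hab, star_hf hH]
  have hc' : star c ≠ 0 := by simpa using hc
  -- a vector outside the plane
  obtain ⟨t, ht⟩ : ∃ t : Fin 3 → K, t ∉ Submodule.span K ({a, b} : Set (Fin 3 → K)) := by
    by_contra hcon
    push Not at hcon
    have h1 : Submodule.span K ({a, b} : Set (Fin 3 → K)) = ⊤ := by
      rw [eq_top_iff]; exact fun x _ => hcon x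
    have h2 : Module.finrank K (Submodule.span K ({a, b} : Set (Fin 3 → K))) ≤ 2 := by
      classical
      have := finrank_span_finset_le_card (R := K) ({a, b} : Finset (Fin 3 → K))
      refine le_trans ?_ (le_trans this Finset.card_le_two)
      rw [Finset.coe_insert, Finset.coe_singleton]
      exact le_rfl
    rw [h1, finrank_top, Module.finrank_fin_fun] at h2
    omega
  refine ⟨t - (hf H t b / c) • a - (hf H t a / star c) • b, ?_, ?_, ?_⟩
  · rw [hf_sub_left, hf_sub_left, hf_smul_left, hf_smul_left, haa, hba]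
    field_simp; ring
  · rw [hf_sub_left, hf_sub_left, hf_smul_left, hf_smul_left, hbb, hab]
    field_simp; ring
  · set m := t - (hf H t b / c) • a - (hf H t a / star c) • b with hm
    have hma : hf H m a = 0 := by
      rw [hm, hf_sub_left, hf_sub_left, hf_smul_left, hf_smul_left, haa, hba]
      field_simp; ring
    have hmb : hf H m b = 0 := by
      rw [hm, hf_sub_left, hf_sub_left, hf_smul_left, hf_smul_left, hbb, hab]
      field_simp; ring
    intro hdet
    obtain ⟨v, hv0, hv⟩ := Matrix.exists_mulVec_eq_zero_iff.2 hdet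
    have hv' : v 0 • a + v 1 • m + v 2 • b = 0 := by
      rw [← hv]
      ext i
      simp [Matrix.mulVec, dotProduct, Fin.sum_univ_three, mul_comm]
    have e0 : v 0 = 0 := by
      have := congrArg (fun z => hf H z b) hv'
      simp only [hf_add_left, hf_smul_left, hmb, hbb, hab, hf_zero_left, mul_zero, add_zero] at this
      exact (mul_eq_zero.1 this).resolve_right hc
    have e2 : v 2 = 0 := by
      have := congrArg (fun z => hf H z a) hv'
      simp only [hf_add_left, hf_smul_left, hma, haa, hba, hf_zero_left, mul_zero, zero_add] at this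
      exact (mul_eq_zero.1 this).resolve_right hc'
    have e1 : v 1 ≠ 0 := by
      intro h
      apply hv0
      ext i
      fin_cases i <;> simp [e0, h, e2]
    rw [e0, e2, zero_smul, zero_smul, zero_add, add_zero] at hv'
    have hm0 : m = 0 := (smul_eq_zero.1 hv').resolve_left e1
    apply ht
    have : t = (hf H t b / c) • a + (hf H t a / star c) • b := by
      rw [hm, sub_sub, sub_eq_zero] at hm0
      exact hm0
    rw [this]
    exact Submodule.add_mem _ (Submodule.smul_mem _ _ (Submodule.subset_span (by simp)))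
      (Submodule.smul_mem _ _ (Submodule.subset_span (by simp)))

theorem col_of (a m b : Fin 3 → K) :
    ((Matrix.of ![a, m, b])ᵀ : Matrix (Fin 3) (Fin 3) K).col 0 = a ∧
    ((Matrix.of ![a, m, b])ᵀ : Matrix (Fin 3) (Fin 3) K).col 1 = m ∧
    ((Matrix.of ![a, m, b])ᵀ : Matrix (Fin 3) (Fin 3) K).col 2 = b := by
  refine ⟨?_, ?_, ?_⟩ <;> ext i <;> simp [Matrix.col]

/-- the Gram matrix of an adapted basis -/
theorem gram_adapted (hH : Hᴴ = H) {a m b : Fin 3 → K} {c : K} (haa : hf H a a = 0)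
    (hbb : hf H b b = 0) (hab : hf H a b = c) (hma : hf H m a = 0) (hmb : hf H m b = 0) :
    ((Matrix.of ![a, m, b])ᵀ)ᴴ * H * (Matrix.of ![a, m, b])ᵀ =
      !![0, 0, star c; 0, hf H m m, 0; c, 0, 0] := by
  have hba : hf H b a = star c := by rw [← hab, star_hf hH]
  have ham : hf H a m = 0 := by rw [← star_hf hH, hma, star_zero]
  have hbm : hf H b m = 0 := by rw [← star_hf hH, hmb, star_zero]
  obtain ⟨c0, c1, c2⟩ := col_of a m b
  ext i j
  rw [gram_apply]
  fin_cases i <;> fin_cases j <;>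
    simp [c0, c1, c2, haa, hbb, hab, hba, hma, hmb, ham, hbm]

/-- WITT: an isometry of hyperbolic pairs extends to an isometry of determinant one -/
theorem witt (hH : Hᴴ = H) {a b a' b' : Fin 3 → K}
    (haa : hf H a a = 0) (hbb : hf H b b = 0) (haa' : hf H a' a' = 0) (hbb' : hf H b' b' = 0)
    (hab : hf H a b = hf H a' b') (hab0 : hf H a b ≠ 0) :
    ∃ W : Matrix (Fin 3) (Fin 3) K, Wᴴ * H * W = H ∧ W.det = 1 ∧ W *ᵥ a = a' ∧ W *ᵥ b = b' := by
  obtain ⟨m, hma, hmb, hP⟩ := exists_basis hH haa hbb rfl hab0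
  obtain ⟨m', hma', hmb', hP'⟩ := exists_basis hH haa' hbb' rfl (hab ▸ hab0)
  set P : Matrix (Fin 3) (Fin 3) K := (Matrix.of ![a, m, b])ᵀ with hPdef
  set P' : Matrix (Fin 3) (Fin 3) K := (Matrix.of ![a', m', b'])ᵀ with hPdef'
  set c := hf H a b with hcdef
  have g1 := gram_adapted hH haa hbb rfl hma hmb
  have g2 := gram_adapted hH haa' hbb' hab.symm hma' hmb'
  rw [← hPdef] at g1
  rw [← hPdef'] at g2
  -- determinants
  have d1 : star P.det * H.det * P.det = -(star c * hf H m m * c) := by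
    have := congrArg Matrix.det g1
    rw [det_mul, det_mul, det_conjTranspose] at this
    rw [this, Matrix.det_fin_three]
    simp
    ring
  have d2 : star P'.det * H.det * P'.det = -(star c * hf H m' m' * c) := by
    have := congrArg Matrix.det g2
    rw [det_mul, det_mul, det_conjTranspose] at this
    rw [this, Matrix.det_fin_three]
    simp
  set t : K := P.det / P'.det with ht
  have ht0 : t ≠ 0 := div_ne_zero hP hP'
  have hsP : star P.det ≠ 0 := by simpa using hP
  have hsP' : star P'.det ≠ 0 := by simpa using hP'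
  have hc' : star c ≠ 0 := by simpa using hab0
  -- the rescaled third vector
  have hmm : hf H (t • m') (t • m') = hf H m m := by
    rw [hf_smul_left, hf_smul_right]
    have h3 : t * (star t * hf H m' m') * (star c * c * (P'.det * star P'.det))
        = hf H m m * (star c * c * (P'.det * star P'.det)) := by
      have ht' : star t = star P.det / star P'.det := by rw [ht, star_div₀]
      rw [ht', ht]
      have : P.det / P'.det * (star P.det / star P'.det * hf H m' m') *
          (star c * c * (P'.det * star P'.det)) =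
          P.det * star P.det * (star c * hf H m' m' * c) := by
        field_simp
      rw [this]
      have e1 : star c * hf H m' m' * c = -(star P'.det * H.det * P'.det) := by rw [d2]; ring
      have e2 : hf H m m * (star c * c * (P'.det * star P'.det)) =
          (star c * hf H m m * c) * (P'.det * star P'.det) := by ring
      have e3 : star c * hf H m m * c = -(star P.det * H.det * P.det) := by rw [d1]; ring
      rw [e1, e2, e3]; ring
    exact mul_right_cancel₀ (mul_ne_zero (mul_ne_zero hc' hab0) (mul_ne_zero hP' hsP')) h3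
  set P'' : Matrix (Fin 3) (Fin 3) K := (Matrix.of ![a', t • m', b'])ᵀ with hPdef''
  have g3 : P''ᴴ * H * P'' = Pᴴ * H * P := by
    rw [g1]
    have := gram_adapted (m := t • m') hH haa' hbb' hab.symm
      (by rw [hf_smul_left, hma', mul_zero]) (by rw [hf_smul_left, hmb', mul_zero])
    rw [← hPdef''] at this
    rw [this, hmm]
  have d3 : P''.det = P.det := by
    have : P''.det = t * P'.det := by
      rw [hPdef'', hPdef', det_transpose, det_transpose, Matrix.det_fin_three,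
        Matrix.det_fin_three]
      simp
      ring
    rw [this, ht, div_mul_cancel₀ _ hP']
  have hPu : IsUnit P.det := isUnit_iff_ne_zero.2 hP
  have hPu' : IsUnit Pᴴ.det := by
    rw [det_conjTranspose]; exact isUnit_iff_ne_zero.2 hsP
  refine ⟨P'' * P⁻¹, ?_, ?_, ?_, ?_⟩
  · rw [conjTranspose_mul]
    calc (P⁻¹)ᴴ * P''ᴴ * H * (P'' * P⁻¹) = (P⁻¹)ᴴ * (P''ᴴ * H * P'') * P⁻¹ := by
          simp only [Matrix.mul_assoc]
      _ = (P⁻¹)ᴴ * (Pᴴ * H * P) * P⁻¹ := by rw [g3]
      _ = ((P⁻¹)ᴴ * Pᴴ) * H * (P * P⁻¹) := by simp only [Matrix.mul_assoc]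
      _ = H := by
          rw [← conjTranspose_mul, Matrix.mul_nonsing_inv _ hPu, conjTranspose_one,
            Matrix.one_mul, Matrix.mul_one]
  · rw [det_mul, Matrix.det_nonsing_inv, d3, Ring.mul_inverse_cancel _ hPu]
  · have h0 : a = P *ᵥ (Pi.single 0 1) := by
      rw [Matrix.mulVec_single_one]; exact (col_of a m b).1.symm
    have h1 : (P'' * P⁻¹) *ᵥ a = P'' *ᵥ Pi.single 0 1 := by
      rw [h0, mulVec_mulVec, Matrix.mul_assoc, Matrix.nonsing_inv_mul _ hPu, Matrix.mul_one]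
    rw [h1, Matrix.mulVec_single_one]
    exact (col_of a' (t • m') b').1
  · have h0 : b = P *ᵥ (Pi.single 2 1) := by
      rw [Matrix.mulVec_single_one]; exact (col_of a m b).2.2.symm
    have h1 : (P'' * P⁻¹) *ᵥ b = P'' *ᵥ Pi.single 2 1 := by
      rw [h0, mulVec_mulVec, Matrix.mul_assoc, Matrix.nonsing_inv_mul _ hPu, Matrix.mul_one]
    rw [h1, Matrix.mulVec_single_one]
    exact (col_of a' (t • m') b').2.2

/-- two independent vectors are part of a basis -/
theorem exists_third {a b : Fin 3 → K} (h : ∀ α β : K, α • a + β • b = 0 → α = 0 ∧ β = 0) :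
    ∃ t : Fin 3 → K, ((Matrix.of ![a, t, b])ᵀ : Matrix (Fin 3) (Fin 3) K).det ≠ 0 := by
  obtain ⟨t, ht⟩ : ∃ t : Fin 3 → K, t ∉ Submodule.span K ({a, b} : Set (Fin 3 → K)) := by
    by_contra hcon
    push Not at hcon
    have h1 : Submodule.span K ({a, b} : Set (Fin 3 → K)) = ⊤ := by
      rw [eq_top_iff]; exact fun x _ => hcon x
    have h2 : Module.finrank K (Submodule.span K ({a, b} : Set (Fin 3 → K))) ≤ 2 := by
      classical
      have := finrank_span_finset_le_card (R := K) ({a, b} : Finset (Fin 3 → K))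
      refine le_trans ?_ (le_trans this Finset.card_le_two)
      rw [Finset.coe_insert, Finset.coe_singleton]
      exact le_rfl
    rw [h1, finrank_top, Module.finrank_fin_fun] at h2
    omega
  refine ⟨t, fun hdet => ?_⟩
  obtain ⟨v, hv0, hv⟩ := Matrix.exists_mulVec_eq_zero_iff.2 hdet
  have hv' : v 0 • a + v 1 • t + v 2 • b = 0 := by
    rw [← hv]
    ext i
    simp [Matrix.mulVec, dotProduct, Fin.sum_univ_three, mul_comm]
  by_cases e1 : v 1 = 0
  · rw [e1, zero_smul, add_zero] at hv'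
    obtain ⟨e0, e2⟩ := h _ _ hv'
    apply hv0
    ext i
    fin_cases i <;> simp [e0, e1, e2]
  · apply ht
    have : t = (-(v 0 / v 1)) • a + (-(v 2 / v 1)) • b := by
      have h3 : v 1 • t = (-(v 0)) • a + (-(v 2)) • b := by
        rw [neg_smul, neg_smul, ← sub_eq_zero]
        rw [← hv']; abel
      calc t = (v 1)⁻¹ • (v 1 • t) := by rw [smul_smul, inv_mul_cancel₀ e1, one_smul]
        _ = _ := by rw [h3, smul_add, smul_smul, smul_smul]; congr 2 <;> (field_simp)
    rw [this]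
    exact Submodule.add_mem _ (Submodule.smul_mem _ _ (Submodule.subset_span (by simp)))
      (Submodule.smul_mem _ _ (Submodule.subset_span (by simp)))

theorem det_ne_zero_of_unitary (hd : H.det ≠ 0) {X : Matrix (Fin 3) (Fin 3) K}
    (hX : Xᴴ * H * X = H) : X.det ≠ 0 := by
  intro h
  apply hd
  rw [← hX, det_mul, h, mul_zero]

/-- the opposite eigenvector -/
theorem exists_opposite (hH : Hᴴ = H) (hd : H.det ≠ 0) {X : Matrix (Fin 3) (Fin 3) K}
    (hX : Xᴴ * H * X = H) {θ : K} {E : Fin 3 → K} (hE : X *ᵥ E = θ • E) (hE0 : E ≠ 0)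
    (h1 : θ * star θ ≠ 1) :
    θ ≠ 0 ∧ hf H E E = 0 ∧
      ∃ F : Fin 3 → K, X *ᵥ F = (star θ)⁻¹ • F ∧ hf H F F = 0 ∧ hf H E F = 1 := by
  have hXd := det_ne_zero_of_unitary hd hX
  have hXinj : Function.Injective X.mulVec := by
    rw [Matrix.mulVec_injective_iff_isUnit, Matrix.isUnit_iff_isUnit_det]
    exact isUnit_iff_ne_zero.2 hXd
  have hθ : θ ≠ 0 := by
    intro h
    rw [h, zero_smul] at hE
    exact hE0 (hXinj (by rw [hE, mulVec_zero]))
  have hsθ : star θ ≠ 0 := by simpa using hθ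
  have iso : ∀ {μ : K} {v : Fin 3 → K}, X *ᵥ v = μ • v → μ * star μ ≠ 1 → hf H v v = 0 := by
    intro μ v hv hμ
    have h := hf_mulVec hX v v
    rw [hv, hf_smul_left, hf_smul_right] at h
    have h' : (μ * star μ - 1) * hf H v v = 0 := by
      rw [sub_mul, one_mul, sub_eq_zero, mul_assoc]; exact h
    exact (mul_eq_zero.1 h').resolve_left (sub_ne_zero.2 hμ)
  refine ⟨hθ, iso hE h1, ?_⟩
  -- the opposite eigenvalue
  have hdet1 : (X - θ • (1 : Matrix (Fin 3) (Fin 3) K)).det = 0 := by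
    rw [← Matrix.exists_mulVec_eq_zero_iff]
    exact ⟨E, hE0, by rw [sub_mulVec, smul_mulVec, one_mulVec, hE, sub_self]⟩
  have hmat : (Xᴴ - θ⁻¹ • (1 : Matrix (Fin 3) (Fin 3) K)) * (H * X) =
      (-θ⁻¹) • (H * (X - θ • (1 : Matrix (Fin 3) (Fin 3) K))) := by
    rw [sub_mul, ← Matrix.mul_assoc, hX, mul_sub, Matrix.smul_mul, Matrix.one_mul,
      Matrix.mul_smul, Matrix.mul_one, smul_sub, smul_smul, neg_mul, inv_mul_cancel₀ hθ,
      neg_smul, neg_smul, one_smul]
    abel
  have hdet2 : (Xᴴ - θ⁻¹ • (1 : Matrix (Fin 3) (Fin 3) K)).det = 0 := by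
    have h := congrArg Matrix.det hmat
    rw [det_mul, det_smul, det_mul, det_mul, hdet1, mul_zero, mul_zero] at h
    exact (mul_eq_zero.1 h).resolve_right (mul_ne_zero hd hXd)
  have hdet3 : (X - (star θ)⁻¹ • (1 : Matrix (Fin 3) (Fin 3) K)).det = 0 := by
    have h : (X - (star θ)⁻¹ • (1 : Matrix (Fin 3) (Fin 3) K))ᴴ =
        Xᴴ - θ⁻¹ • (1 : Matrix (Fin 3) (Fin 3) K) := by
      rw [conjTranspose_sub, conjTranspose_smul, conjTranspose_one, star_inv₀, star_star]
    have h' := det_conjTranspose (X - (star θ)⁻¹ • (1 : Matrix (Fin 3) (Fin 3) K))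
    rw [h, hdet2] at h'
    exact (star_eq_zero.1 h'.symm)
  obtain ⟨F, hF0, hF⟩ := Matrix.exists_mulVec_eq_zero_iff.2 hdet3
  have hF' : X *ᵥ F = (star θ)⁻¹ • F := by
    rw [sub_mulVec, smul_mulVec, one_mulVec, sub_eq_zero] at hF
    exact hF
  have hN : (star θ)⁻¹ * star (star θ)⁻¹ ≠ 1 := by
    rw [star_inv₀, star_star]
    intro h
    apply h1
    field_simp at h
    rw [mul_comm]
    exact h.symm
  have hFF := iso hF' hN
  have hEE := iso hE h1
  have hEF : hf H E F ≠ 0 := by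
    intro h0
    have hFE : hf H F E = 0 := by rw [← star_hf hH, h0, star_zero]
    have hind : ∀ α β : K, α • E + β • F = 0 → α = 0 ∧ β = 0 := by
      intro α β h
      have hX2 : (α * θ) • E + (β * (star θ)⁻¹) • F = 0 := by
        have := congrArg X.mulVec h
        rw [mulVec_add, mulVec_smul, mulVec_smul, hE, hF', mulVec_zero, smul_smul,
          smul_smul] at this
        exact this
      have h3 : (β * ((star θ)⁻¹ - θ)) • F = 0 := by
        have h4 : θ • (α • E + β • F) = 0 := by rw [h, smul_zero]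
        rw [smul_add, smul_smul, smul_smul] at h4
        have h5 : (β * ((star θ)⁻¹ - θ)) • F = ((α * θ) • E + (β * (star θ)⁻¹) • F) -
            ((θ * α) • E + (θ * β) • F) := by
          rw [mul_sub, sub_smul, mul_comm θ α, mul_comm θ β]; abel
        rw [h5, hX2, h4, sub_zero]
      have h6 : (star θ)⁻¹ - θ ≠ 0 := by
        rw [sub_ne_zero]
        intro h
        apply h1
        nth_rewrite 1 [← h]
        exact inv_mul_cancel₀ hsθ
      have hβ : β = 0 := by
        rcases smul_eq_zero.1 h3 with h | h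
        · exact (mul_eq_zero.1 h).resolve_right h6
        · exact absurd h hF0
      rw [hβ, zero_smul, add_zero] at h
      exact ⟨(smul_eq_zero.1 h).resolve_right hE0, hβ⟩
    obtain ⟨t, ht⟩ := exists_third hind
    set P : Matrix (Fin 3) (Fin 3) K := (Matrix.of ![E, t, F])ᵀ with hP
    obtain ⟨c0, c1, c2⟩ := col_of E t F
    have hg : (Pᴴ * H * P).det = 0 := by
      rw [Matrix.det_fin_three]
      simp only [gram_apply, hP, c0, c1, c2, hEE, hFF, h0, hFE]
      ring
    rw [det_mul, det_mul, det_conjTranspose] at hg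
    have hsP : star P.det ≠ 0 := by simpa using ht
    exact mul_ne_zero (mul_ne_zero hsP hd) ht hg
  refine ⟨(star (hf H E F))⁻¹ • F, ?_, ?_, ?_⟩
  · rw [mulVec_smul, hF', smul_comm]
  · rw [hf_smul_left, hf_smul_right, hFF, mul_zero, mul_zero]
  · rw [hf_smul_right, star_inv₀, star_star, inv_mul_cancel₀ hEF]

/-- a special unitary matrix with isotropic eigenvectors of eigenvalues `s`, `s⁻¹` is the
identity on the orthogonal complement -/
theorem fix_orth (hH : Hᴴ = H) {X : Matrix (Fin 3) (Fin 3) K}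
    (hX : Xᴴ * H * X = H) (hdet : X.det = 1) {s : K} (hs0 : s ≠ 0) {a b m : Fin 3 → K}
    (haa : hf H a a = 0) (hbb : hf H b b = 0) (hab : hf H a b ≠ 0)
    (hXa : X *ᵥ a = s • a) (hXb : X *ᵥ b = s⁻¹ • b)
    (hma : hf H m a = 0) (hmb : hf H m b = 0)
    (hP : ((Matrix.of ![a, m, b])ᵀ : Matrix (Fin 3) (Fin 3) K).det ≠ 0) : X *ᵥ m = m := by
  have hba : hf H b a ≠ 0 := by
    rw [← star_hf hH]; simpa using hab
  set P : Matrix (Fin 3) (Fin 3) K := (Matrix.of ![a, m, b])ᵀ with hPdef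
  have hsurj : Function.Surjective P.mulVec := by
    rw [Matrix.mulVec_surjective_iff_isUnit, Matrix.isUnit_iff_isUnit_det]
    exact isUnit_iff_ne_zero.2 hP
  obtain ⟨v, hv⟩ := hsurj (X *ᵥ m)
  have hv' : v 0 • a + v 1 • m + v 2 • b = X *ᵥ m := by
    rw [← hv]
    ext i
    simp [hPdef, Matrix.mulVec, dotProduct, Fin.sum_univ_three, mul_comm]
  have e1 : hf H (X *ᵥ m) a = 0 := by
    have h := hf_mulVec hX m a
    rw [hma, hXa, hf_smul_right] at h
    have hss : star s ≠ 0 := by simpa using hs0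
    exact (mul_eq_zero.1 h).resolve_left hss
  have e2 : hf H (X *ᵥ m) b = 0 := by
    have h := hf_mulVec hX m b
    rw [hmb, hXb, hf_smul_right] at h
    have hss : star s⁻¹ ≠ 0 := by simpa using hs0
    exact (mul_eq_zero.1 h).resolve_left hss
  have f0 : v 0 = 0 := by
    have h := e2
    rw [← hv', hf_add_left, hf_add_left, hf_smul_left, hf_smul_left, hf_smul_left, hmb, hbb,
      mul_zero, mul_zero, add_zero, add_zero] at h
    exact (mul_eq_zero.1 h).resolve_right hab
  have f2 : v 2 = 0 := by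
    have h := e1
    rw [← hv', hf_add_left, hf_add_left, hf_smul_left, hf_smul_left, hf_smul_left, hma, haa,
      mul_zero, mul_zero, add_zero, zero_add] at h
    exact (mul_eq_zero.1 h).resolve_right hba
  rw [f0, f2, zero_smul, zero_smul, zero_add, add_zero] at hv'
  -- the determinant
  have hXP : X * P = (Matrix.of ![s • a, v 1 • m, s⁻¹ • b])ᵀ := by
    ext i j
    have hcol : (X * P) i j = (X *ᵥ P.col j) i := rfl
    rw [hcol]
    obtain ⟨c0, c1, c2⟩ := col_of a m b
    fin_cases j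
    · simp only [Fin.zero_eta, hPdef, c0, hXa]; simp
    · simp only [Fin.mk_one, hPdef, c1, ← hv']; simp
    · simp only [Fin.reduceFinMk, hPdef, c2, hXb]; simp
  have hd2 : ((Matrix.of ![s • a, v 1 • m, s⁻¹ • b])ᵀ : Matrix (Fin 3) (Fin 3) K).det =
      v 1 * P.det := by
    rw [hPdef, det_transpose, det_transpose, Matrix.det_fin_three, Matrix.det_fin_three]
    simp
    field_simp
  have h3 := congrArg Matrix.det hXP
  rw [det_mul, hdet, one_mul, hd2] at h3
  have hv1 : v 1 = 1 := by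
    have : (v 1 - 1) * P.det = 0 := by rw [sub_mul, one_mul, ← h3, sub_self]
    exact sub_eq_zero.1 ((mul_eq_zero.1 this).resolve_right hP)
  rw [← hv', hv1, one_smul]

/-- CONJUGACY of special unitary matrices with the same eigenvalues `s, 1, s⁻¹` -/
theorem conj_of_eigen (hH : Hᴴ = H) {X Y : Matrix (Fin 3) (Fin 3) K}
    (hX : Xᴴ * H * X = H) (hXdet : X.det = 1) (hY : Yᴴ * H * Y = H) (hYdet : Y.det = 1)
    {s : K} (hs0 : s ≠ 0) {a b a' b' : Fin 3 → K}
    (haa : hf H a a = 0) (hbb : hf H b b = 0) (haa' : hf H a' a' = 0) (hbb' : hf H b' b' = 0)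
    (hab : hf H a b = 1) (hab' : hf H a' b' = 1)
    (hXa : X *ᵥ a = s • a) (hXb : X *ᵥ b = s⁻¹ • b)
    (hYa : Y *ᵥ a' = s • a') (hYb : Y *ᵥ b' = s⁻¹ • b') :
    ∃ G : Matrix (Fin 3) (Fin 3) K, Gᴴ * H * G = H ∧ G.det = 1 ∧ Y * G = G * X := by
  obtain ⟨G, hG, hGdet, hGa, hGb⟩ := witt hH haa hbb haa' hbb' (hab.trans hab'.symm)
    (by rw [hab]; exact one_ne_zero)
  refine ⟨G, hG, hGdet, ?_⟩
  obtain ⟨m, hma, hmb, hP⟩ := exists_basis hH haa hbb hab one_ne_zero
  have hXm := fix_orth hH hX hXdet hs0 haa hbb (by rw [hab]; exact one_ne_zero) hXa hXb hma hmb hP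
  have hma' : hf H (G *ᵥ m) a' = 0 := by rw [← hGa, hf_mulVec hG, hma]
  have hmb' : hf H (G *ᵥ m) b' = 0 := by rw [← hGb, hf_mulVec hG, hmb]
  set P : Matrix (Fin 3) (Fin 3) K := (Matrix.of ![a, m, b])ᵀ with hPdef
  obtain ⟨c0, c1, c2⟩ := col_of a m b
  have hGP : G * P = (Matrix.of ![a', G *ᵥ m, b'])ᵀ := by
    ext i j
    have hcol : (G * P) i j = (G *ᵥ P.col j) i := rfl
    rw [hcol]
    fin_cases j
    · simp only [Fin.zero_eta, hPdef, c0, hGa]; simp
    · simp only [Fin.mk_one, hPdef, c1]; simp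
    · simp only [Fin.reduceFinMk, hPdef, c2, hGb]; simp
  have hP' : ((Matrix.of ![a', G *ᵥ m, b'])ᵀ : Matrix (Fin 3) (Fin 3) K).det ≠ 0 := by
    rw [← hGP, det_mul, hGdet, one_mul]; exact hP
  have hYm := fix_orth hH hY hYdet hs0 haa' hbb' (by rw [hab']; exact one_ne_zero) hYa hYb
    hma' hmb' hP'
  have hPu : IsUnit P := (Matrix.isUnit_iff_isUnit_det P).2 (isUnit_iff_ne_zero.2 hP)
  have key : Y * G * P = G * X * P := by
    ext i j
    have h1 : (Y * G * P) i j = (Y *ᵥ (G *ᵥ P.col j)) i := by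
      rw [mulVec_mulVec]; rfl
    have h2 : (G * X * P) i j = (G *ᵥ (X *ᵥ P.col j)) i := by
      rw [mulVec_mulVec]; rfl
    rw [h1, h2]
    fin_cases j
    · simp only [Fin.zero_eta, hPdef, c0, hGa, hXa, hYa, mulVec_smul]
    · simp only [Fin.mk_one, hPdef, c1, hXm, hYm]
    · simp only [Fin.reduceFinMk, hPdef, c2, hGb, hXb, hYb, mulVec_smul]
  exact hPu.mul_right_cancel key

/-- the trace condition on hyperbolic pairs -/
theorem exists_pair (hH : Hᴴ = H) (hd : H.det ≠ 0) {X : Matrix (Fin 3) (Fin 3) K}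
    (hX : Xᴴ * H * X = H) {θ : K} {E : Fin 3 → K} (hE : X *ᵥ E = θ • E) (hE0 : E ≠ 0)
    (h1 : θ * star θ ≠ 1) (h2 : star θ ≠ θ) :
    ∃ a b : Fin 3 → K, hf H a a = 0 ∧ hf H b b = 0 ∧ hf H a b = 1 ∧ hf H (X *ᵥ a) b = 1 := by
  obtain ⟨hθ, hEE, F, hF, hFF, hEF⟩ := exists_opposite hH hd hX hE hE0 h1
  have hsθ : star θ ≠ 0 := by simpa using hθ
  have hFE : hf H F E = 1 := by rw [← star_hf hH, hEF, star_one]
  obtain ⟨M, hME, hMF, hP⟩ := exists_basis hH hEE hFF hEF one_ne_zero
  have hEM : hf H E M = 0 := by rw [← star_hf hH, hME, star_zero]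
  have hFM : hf H F M = 0 := by rw [← star_hf hH, hMF, star_zero]
  set η := hf H M M with hη
  have hsη : star η = η := star_hf hH M M
  have hη0 : η ≠ 0 := by
    intro h0
    have g := gram_adapted hH hEE hFF hEF hME hMF
    rw [← hη, h0] at g
    have h3 := congrArg Matrix.det g
    rw [det_mul, det_mul, det_conjTranspose, Matrix.det_fin_three (!![_, _, _; _, _, _; _, _, _])]
      at h3
    simp at h3
    rcases h3 with h3 | h3
    · rcases h3 with h3 | h3
      · exact hP (by simpa using h3)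
      · exact hd h3
    · exact hP (by simpa using h3)
  set y := (θ - 1) * (θ⁻¹ - 1) with hy
  have hsy : star y = (star θ - 1) * ((star θ)⁻¹ - 1) := by
    rw [hy, star_mul', star_sub, star_sub, star_one, star_inv₀]
  have hyy : y - star y ≠ 0 := by
    have h3 : y - star y = (star θ - θ) * (θ * star θ - 1) / (θ * star θ) := by
      rw [hsy, hy]; field_simp; ring
    rw [h3]
    exact div_ne_zero (mul_ne_zero (sub_ne_zero.2 h2) (sub_ne_zero.2 h1)) (mul_ne_zero hθ hsθ)
  set r := -(η * (y - star y))⁻¹ with hr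
  have hsr : star r = -r := by
    rw [hr, star_neg, star_inv₀, star_mul', star_sub, star_star, hsη, ← neg_sub y, mul_neg,
      inv_neg]
  have hr0 : r ≠ 0 := by
    rw [hr, neg_ne_zero]; exact inv_ne_zero (mul_ne_zero hη0 hyy)
  have hrη : r * (η * (y - star y)) = -1 := by
    rw [hr, neg_mul, inv_mul_cancel₀ (mul_ne_zero hη0 hyy)]
  set a := θ - 1 with ha
  set b := r * ((star θ)⁻¹ - 1) with hb
  have hsa : star a = star θ - 1 := by rw [ha, star_sub, star_one]
  have hsb : star b = -r * (θ⁻¹ - 1) := by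
    rw [hb, star_mul', hsr, star_sub, star_inv₀, star_star, star_one]
  set f0 := E + r • F with hf0
  set e0' := η⁻¹ • M + (star a • E - star b • F) with he0
  have hXf0 : X *ᵥ f0 = f0 + (a • E + b • F) := by
    rw [hf0, mulVec_add, mulVec_smul, hE, hF, ha, hb, sub_smul, one_smul, mul_sub, sub_smul,
      mul_one, smul_smul]
    abel
  have i1 : hf H f0 f0 = 0 := by
    rw [hf0, hf_add_left, hf_add_right, hf_add_right, hf_smul_left, hf_smul_right, hf_smul_left,
      hf_smul_right, hEE, hEF, hFE, hFF, hsr]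
    ring
  have i2 : hf H e0' e0' = 0 := by
    rw [he0]
    simp only [hf_add_left, hf_sub_left, hf_smul_left, hf_add_right, hf_sub_right, hf_smul_right,
      hEE, hEF, hFE, hFF, hME, hMF, hEM, hFM, ← hη, star_star, star_inv₀, hsη]
    rw [hsa, hsb, ha, hb]
    have h3 : -r * (y - star y) = η⁻¹ := by
      field_simp
      linear_combination (-1 : K) * hrη
    rw [hy, hsy] at h3
    have h4 : η⁻¹ * (η⁻¹ * η) = η⁻¹ := by rw [inv_mul_cancel₀ hη0, mul_one]
    linear_combination h4 + (-1 : K) * h3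
  have i3 : hf H f0 e0' = r * (θ - (star θ)⁻¹) := by
    rw [hf0, he0]
    simp only [hf_add_left, hf_smul_left, hf_add_right, hf_sub_right, hf_smul_right,
      hEE, hEF, hFE, hFF, hEM, hFM, star_star]
    rw [ha, hb]
    ring
  have i4 : hf H (a • E + b • F) e0' = 0 := by
    rw [he0]
    simp only [hf_add_left, hf_smul_left, hf_add_right, hf_sub_right, hf_smul_right,
      hEE, hEF, hFE, hFF, hEM, hFM, star_star]
    ring
  set D0 := hf H f0 e0' with hD0
  have hD : D0 ≠ 0 := by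
    rw [i3]
    refine mul_ne_zero hr0 (sub_ne_zero.2 fun h => h1 ?_)
    nth_rewrite 1 [h]
    exact inv_mul_cancel₀ hsθ
  refine ⟨f0, (star D0)⁻¹ • e0', i1, ?_, ?_, ?_⟩
  · rw [hf_smul_left, hf_smul_right, i2, mul_zero, mul_zero]
  · rw [hf_smul_right, star_inv₀, star_star, ← hD0, inv_mul_cancel₀ hD]
  · rw [hXf0, hf_smul_right, hf_add_left, i4, add_zero, star_inv₀, star_star, ← hD0,
      inv_mul_cancel₀ hD]

/-- **THE LOCAL COMMUTATOR LEMMA.** -/
theorem exists_comm (hH : Hᴴ = H) (hd : H.det ≠ 0) {X : Matrix (Fin 3) (Fin 3) K}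
    (hX : Xᴴ * H * X = H) (hXdet : X.det = 1) {θ : K} {E : Fin 3 → K} (hE : X *ᵥ E = θ • E)
    (hE0 : E ≠ 0) (h1 : θ * star θ ≠ 1) (h2 : star θ ≠ θ) {s : K} (hs : star s = s)
    (hs0 : s ≠ 0) (hs1 : s * s ≠ 1) :
    ∃ G W : Matrix (Fin 3) (Fin 3) K, Gᴴ * H * G = H ∧ G.det = 1 ∧ Wᴴ * H * W = H ∧
      W.det = 1 ∧ X * W * G = G * W ∧
      ∃ a b : Fin 3 → K, hf H a a = 0 ∧ hf H b b = 0 ∧ hf H a b = 1 ∧ W *ᵥ a = s • a ∧
        W *ᵥ b = s⁻¹ • b := by
  obtain ⟨a, b, haa, hbb, hab, hXab⟩ := exists_pair hH hd hX hE hE0 h1 h2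
  have hXu : IsUnit X.det := by rw [hXdet]; exact isUnit_one
  set c := X⁻¹ *ᵥ b with hc
  have hXc : X *ᵥ c = b := by
    rw [hc, mulVec_mulVec, Matrix.mul_nonsing_inv _ hXu, one_mulVec]
  have hss : star s⁻¹ = s⁻¹ := by rw [star_inv₀, hs]
  have hcc : hf H c c = 0 := by rw [← hf_mulVec hX, hXc, hbb]
  have hac : hf H a c = 1 := by rw [← hf_mulVec hX, hXc, hXab]
  obtain ⟨W, hW, hWdet, hWa, hWb⟩ := witt (a := a) (b := b) (a' := s • a) (b' := s⁻¹ • c) hH
    haa hbb (by rw [hf_smul_left, hf_smul_right, haa, mul_zero, mul_zero])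
    (by rw [hf_smul_left, hf_smul_right, hcc, mul_zero, mul_zero])
    (by rw [hf_smul_left, hf_smul_right, hac, hab, hss, mul_one, mul_inv_cancel₀ hs0])
    (by rw [hab]; exact one_ne_zero)
  -- the product
  have hXW : (X * W)ᴴ * H * (X * W) = H := by
    rw [conjTranspose_mul]
    calc Wᴴ * Xᴴ * H * (X * W) = Wᴴ * (Xᴴ * H * X) * W := by simp only [Matrix.mul_assoc]
      _ = H := by rw [hX, hW]
  have hXWdet : (X * W).det = 1 := by rw [det_mul, hXdet, hWdet, one_mul]
  have hXWb : (X * W) *ᵥ b = s⁻¹ • b := by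
    rw [← mulVec_mulVec, hWb, mulVec_smul, hXc]
  have ha0 : a ≠ 0 := by
    intro h; rw [h, hf_zero_left] at hab; exact zero_ne_one hab
  have hb0 : b ≠ 0 := by
    intro h
    rw [h] at hab
    simp [hf] at hab
  obtain ⟨-, -, b1, hb1, hb1b1, hab1⟩ := exists_opposite hH hd hW hWa ha0 (by rw [hs]; exact hs1)
  rw [hs] at hb1
  have hs1' : s⁻¹ * star s⁻¹ ≠ 1 := by
    rw [hss, ← mul_inv]
    intro h
    exact hs1 (inv_eq_one.1 h)
  obtain ⟨-, -, a2, ha2, ha2a2, hba2⟩ := exists_opposite hH hd hXW hXWb hb0 hs1'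
  rw [hss, inv_inv] at ha2
  have ha2b : hf H a2 b = 1 := by rw [← star_hf hH, hba2, star_one]
  obtain ⟨G, hG, hGdet, hGW⟩ := conj_of_eigen hH hW hWdet hXW hXWdet hs0 haa hb1b1 ha2a2 hbb
    hab1 ha2b hWa hb1 ha2 hXWb
  exact ⟨G, W, hG, hGdet, hW, hWdet, hGW, a, b1, haa, hb1b1, hab1, hWa, hb1⟩

/-- a matrix whose form vanishes on all isotropic vectors is a multiple of `H` -/
theorem eq_smul_of_isotropic (hH : Hᴴ = H) (h2 : (2 : K) ≠ 0) {δ : K}
    (hδ : star δ = -δ) (hδ0 : δ ≠ 0) {a b : Fin 3 → K} (haa : hf H a a = 0)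
    (hbb : hf H b b = 0) (hab : hf H a b = 1) {Y : Matrix (Fin 3) (Fin 3) K}
    (hY : ∀ e : Fin 3 → K, hf H e e = 0 → star e ⬝ᵥ (Y *ᵥ e) = 0) :
    ∃ c : K, Y = c • H := by
  obtain ⟨m, hma, hmb, hP⟩ := exists_basis hH haa hbb hab one_ne_zero
  have hba : hf H b a = 1 := by rw [← star_hf hH, hab, star_one]
  have ham : hf H a m = 0 := by rw [← star_hf hH, hma, star_zero]
  have hbm : hf H b m = 0 := by rw [← star_hf hH, hmb, star_zero]
  set η := hf H m m with hη
  have hsη : star η = η := star_hf hH m m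
  set Φ : (Fin 3 → K) → (Fin 3 → K) → K := fun x y => star y ⬝ᵥ (Y *ᵥ x) with hΦ
  have Φal : ∀ x x' y, Φ (x + x') y = Φ x y + Φ x' y := by
    intro x x' y; simp [hΦ, mulVec_add, dotProduct_add]
  have Φsl : ∀ (c : K) x y, Φ (c • x) y = c * Φ x y := by
    intro c x y; simp [hΦ, mulVec_smul]
  have Φar : ∀ x y y', Φ x (y + y') = Φ x y + Φ x y' := by
    intro x y y'; simp [hΦ, add_dotProduct]
  have Φsr : ∀ (c : K) x y, Φ x (c • y) = star c * Φ x y := by
    intro c x y; simp [hΦ, star_smul, smul_dotProduct]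
  have hΦ0 : ∀ e, hf H e e = 0 → Φ e e = 0 := hY
  have Φaa := hΦ0 a haa
  have Φbb := hΦ0 b hbb
  have h2' : star (2 : K) = 2 := by
    have : (2 : K) = 1 + 1 := by norm_num
    rw [this, star_add, star_one]
  -- the general isotropic vector
  have hgen : ∀ s τ : K, star τ = τ →
      star s * Φ a m + s * Φ m a + s * star s * Φ m m +
        (-(η * s * star s) / 2 - τ * δ) * Φ a b + (-(η * s * star s) / 2 + τ * δ) * Φ b a +
        s * (-(η * s * star s) / 2 - τ * δ) * Φ m b +
        (-(η * s * star s) / 2 + τ * δ) * star s * Φ b m = 0 := by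
    intro s τ hτ
    set r := -(η * s * star s) / 2 + τ * δ with hr
    have hsr : star r = -(η * s * star s) / 2 - τ * δ := by
      rw [hr, star_add, star_div₀, star_neg, star_mul', star_mul', star_mul', star_star, hsη, h2',
        hτ, hδ]
      ring
    have hv : hf H (a + s • m + r • b) (a + s • m + r • b) = 0 := by
      simp only [hf_add_left, hf_smul_left, hf_add_right, hf_smul_right, haa, hbb, hab, hba, hma,
        hmb, ham, hbm, ← hη]
      rw [hsr, hr]
      field_simp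
      ring
    have h3 := hΦ0 _ hv
    simp only [Φal, Φsl, Φar, Φsr, Φaa, Φbb] at h3
    rw [hsr] at h3
    linear_combination h3
  have e1 : Φ a b = Φ b a := by
    have h3 := hgen 0 1 (star_one K)
    simp only [star_zero, zero_mul, mul_zero, add_zero, zero_add, neg_zero, zero_div, one_mul,
      zero_sub] at h3
    have h4 : δ * (Φ b a - Φ a b) = 0 := by linear_combination h3
    exact (sub_eq_zero.1 ((mul_eq_zero.1 h4).resolve_left hδ0)).symm
  have e2 : ∀ s : K, s * Φ m b = star s * Φ b m := by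
    intro s
    have h3 := hgen s 1 (star_one K)
    have h4 := hgen s 0 (star_zero K)
    have h5 : δ * (star s * Φ b m - s * Φ m b) = 0 := by
      rw [e1] at h3 h4
      linear_combination h3 - h4
    exact (sub_eq_zero.1 ((mul_eq_zero.1 h5).resolve_left hδ0)).symm
  have e3 : Φ m b = Φ b m := by simpa using e2 1
  have e4 : Φ m b = 0 := by
    have h3 := e2 δ
    rw [hδ, ← e3] at h3
    have h4 : δ * 2 * Φ m b = 0 := by linear_combination h3
    exact (mul_eq_zero.1 h4).resolve_left (mul_ne_zero hδ0 h2)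
  have e5 : Φ b m = 0 := by rw [← e3, e4]
  have e6 : ∀ s : K, star s * Φ a m + s * Φ m a + s * star s * (Φ m m - η * Φ b a) = 0 := by
    intro s
    have h3 := hgen s 0 (star_zero K)
    rw [e1, e4, e5] at h3
    have h4 : (2 : K) * 2⁻¹ = 1 := mul_inv_cancel₀ h2
    linear_combination h3 - (-(η * s * star s)) * Φ b a * (h4)
  have e7 : Φ m m = η * Φ b a := by
    have h3 := e6 1
    have h4 := e6 (-1)
    simp only [star_one, star_neg] at h3 h4
    have h5 : 2 * (Φ m m - η * Φ b a) = 0 := by linear_combination h3 + h4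
    exact sub_eq_zero.1 ((mul_eq_zero.1 h5).resolve_left h2)
  have e8 : ∀ s : K, star s * Φ a m + s * Φ m a = 0 := by
    intro s
    have h3 := e6 s
    rw [e7] at h3
    linear_combination h3
  have e9 : Φ m a = - Φ a m := by
    have h3 := e8 1
    simp only [star_one] at h3
    linear_combination h3
  have e10 : Φ a m = 0 := by
    have h3 := e8 δ
    rw [hδ, e9] at h3
    have h4 : δ * 2 * Φ a m = 0 := by linear_combination -h3
    exact (mul_eq_zero.1 h4).resolve_left (mul_ne_zero hδ0 h2)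
  have e11 : Φ m a = 0 := by rw [e9, e10, neg_zero]
  refine ⟨Φ b a, ?_⟩
  set P : Matrix (Fin 3) (Fin 3) K := (Matrix.of ![a, m, b])ᵀ with hPdef
  obtain ⟨c0, c1, c2⟩ := col_of a m b
  have key : Pᴴ * Y * P = Pᴴ * (Φ b a • H) * P := by
    ext i j
    have h3 : (Pᴴ * Y * P) i j = Φ (P.col j) (P.col i) := by
      rw [hΦ, Matrix.mul_assoc, Matrix.mul_apply]
      exact Finset.sum_congr rfl fun l _ => rfl
    have h4 : (Pᴴ * (Φ b a • H) * P) i j = Φ b a * hf H (P.col j) (P.col i) := by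
      rw [Matrix.mul_smul, Matrix.smul_mul, Matrix.smul_apply, gram_apply, smul_eq_mul]
    rw [h3, h4]
    fin_cases i <;> fin_cases j <;>
      simp [hPdef, c0, c1, c2, haa, hbb, hab, hba, hma, hmb, ham, hbm, Φaa, Φbb, e1, e4, e5, e7,
        e10, e11, ← hη, mul_comm]
  have hPu : IsUnit P := (Matrix.isUnit_iff_isUnit_det P).2 (isUnit_iff_ne_zero.2 hP)
  have hPu' : IsUnit Pᴴ := by
    rw [Matrix.isUnit_iff_isUnit_det, det_conjTranspose]
    exact isUnit_iff_ne_zero.2 (by simpa using hP)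
  exact hPu'.mul_left_cancel (hPu.mul_right_cancel key)

/-- two isotropic orthogonal vectors are dependent -/
theorem dep_of_orth (hH : Hᴴ = H) (hd : H.det ≠ 0) {a b : Fin 3 → K} (haa : hf H a a = 0)
    (hbb : hf H b b = 0) (hab : hf H a b = 0) (ha : a ≠ 0) : ∃ c : K, b = c • a := by
  by_contra hcon
  push Not at hcon
  have hba : hf H b a = 0 := by rw [← star_hf hH, hab, star_zero]
  have hind : ∀ α β : K, α • a + β • b = 0 → α = 0 ∧ β = 0 := by
    intro α β h
    have hβ : β = 0 := by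
      by_contra hβ
      apply hcon (-(α / β))
      have h3 : β • b = (-α) • a := by
        rw [neg_smul, ← sub_eq_zero, sub_neg_eq_add, add_comm]; exact h
      calc b = β⁻¹ • (β • b) := by rw [smul_smul, inv_mul_cancel₀ hβ, one_smul]
        _ = _ := by rw [h3, smul_smul]; congr 1; field_simp
    rw [hβ, zero_smul, add_zero] at h
    exact ⟨(smul_eq_zero.1 h).resolve_right ha, hβ⟩
  obtain ⟨t, ht⟩ := exists_third hind
  set P : Matrix (Fin 3) (Fin 3) K := (Matrix.of ![a, t, b])ᵀ with hP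
  obtain ⟨c0, c1, c2⟩ := col_of a t b
  have hg : (Pᴴ * H * P).det = 0 := by
    rw [Matrix.det_fin_three]
    simp only [gram_apply, hP, c0, c1, c2, haa, hbb, hab, hba]
    ring
  rw [det_mul, det_mul, det_conjTranspose] at hg
  have hsP : star P.det ≠ 0 := by simpa using ht
  exact mul_ne_zero (mul_ne_zero hsP hd) ht hg

/-- **THE MOVE.**  `Z`, `W₀` unitary with the same determinant, `W₀` not scalar, `Z` not
annihilated by a quadratic polynomial, `H` isotropic.  Then for some `U` in the special unitary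
group `X = U Z U⁻¹ W₀⁻¹` has an eigenvalue `θ` with `θ θ' ≠ 1`, `θ' ≠ θ`. -/
theorem exists_move (hH : Hᴴ = H) (hd : H.det ≠ 0) [CharZero K] {δ : K}
    (hδ : star δ = -δ) (hδ0 : δ ≠ 0) {a b : Fin 3 → K} (haa : hf H a a = 0)
    (hbb : hf H b b = 0) (hab : hf H a b = 1) {Z W₀ : Matrix (Fin 3) (Fin 3) K}
    (hZ : Zᴴ * H * Z = H) (hW₀ : W₀ᴴ * H * W₀ = H)
    (hZ2 : ∀ α β γ : K, α • (Z * Z) + β • Z + γ • 1 = 0 → α = 0)
    (hW2 : ∀ c : K, W₀ ≠ c • 1) :
    ∃ (U : Matrix (Fin 3) (Fin 3) K) (θ : K) (f : Fin 3 → K), Uᴴ * H * U = H ∧ U.det = 1 ∧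
      f ≠ 0 ∧ θ * star θ ≠ 1 ∧ star θ ≠ θ ∧ (U * Z * U⁻¹ * W₀⁻¹) *ᵥ f = θ • f := by
  have h2 : (2 : K) ≠ 0 := two_ne_zero
  have h2' : star (2 : K) = 2 := by
    have : (2 : K) = 1 + 1 := by norm_num
    rw [this, star_add, star_one]
  -- an isotropic vector moved by `W₀` off its orthogonal complement
  obtain ⟨f, hff, hB⟩ : ∃ f : Fin 3 → K, hf H f f = 0 ∧ hf H f (W₀ *ᵥ f) ≠ 0 := by
    by_contra hcon
    push Not at hcon
    have h3 : ∀ e : Fin 3 → K, hf H e e = 0 → star e ⬝ᵥ ((W₀ᴴ * H) *ᵥ e) = 0 := by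
      intro e he
      have h4 := hcon e he
      unfold hf at h4
      rw [star_mulVec, ← dotProduct_mulVec, mulVec_mulVec] at h4
      exact h4
    obtain ⟨c, hc⟩ := eq_smul_of_isotropic hH h2 hδ hδ0 haa hbb hab h3
    have hHu : IsUnit H := (Matrix.isUnit_iff_isUnit_det H).2 (isUnit_iff_ne_zero.2 hd)
    have h5 : W₀ᴴ = c • 1 := by
      apply hHu.mul_right_cancel
      rw [hc, Matrix.smul_mul, Matrix.one_mul]
    apply hW2 (star c)
    have h6 := congrArg conjTranspose h5
    rw [conjTranspose_conjTranspose, conjTranspose_smul, conjTranspose_one] at h6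
    exact h6
  set B := hf H f (W₀ *ᵥ f) with hBdef
  have hsB : star B ≠ 0 := by simpa using hB
  -- an isotropic vector with a non real ratio
  obtain ⟨e, hee, hA⟩ : ∃ e : Fin 3 → K, hf H e e = 0 ∧
      hf H e (Z *ᵥ e) * star B ≠ star (hf H e (Z *ᵥ e)) * B := by
    by_contra hcon
    push Not at hcon
    have h3 : ∀ e : Fin 3 → K, hf H e e = 0 →
        star e ⬝ᵥ ((star B • (Zᴴ * H) - B • (H * Z)) *ᵥ e) = 0 := by
      intro e he
      have h4 := hcon e he
      have h4a : hf H e (Z *ᵥ e) = star e ⬝ᵥ ((Zᴴ * H) *ᵥ e) := by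
        unfold hf
        rw [star_mulVec, ← dotProduct_mulVec, mulVec_mulVec]
      have h4b : star (hf H e (Z *ᵥ e)) = star e ⬝ᵥ ((H * Z) *ᵥ e) := by
        rw [star_hf hH]
        unfold hf
        rw [mulVec_mulVec]
      rw [h4b, h4a] at h4
      rw [sub_mulVec, smul_mulVec, smul_mulVec, dotProduct_sub, dotProduct_smul, dotProduct_smul,
        smul_eq_mul, smul_eq_mul]
      linear_combination h4
    obtain ⟨c, hc⟩ := eq_smul_of_isotropic hH h2 hδ hδ0 haa hbb hab h3
    have h5 : (star B • (Zᴴ * H) - B • (H * Z)) * Z = c • H * Z := by rw [hc]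
    rw [sub_mul, Matrix.smul_mul, Matrix.smul_mul, hZ, Matrix.mul_assoc, Matrix.smul_mul] at h5
    have hHu : IsUnit H := (Matrix.isUnit_iff_isUnit_det H).2 (isUnit_iff_ne_zero.2 hd)
    have h6 : H * (B • (Z * Z) + c • Z + (-star B) • 1) = H * 0 := by
      rw [Matrix.mul_zero, Matrix.mul_add, Matrix.mul_add, Matrix.mul_smul, Matrix.mul_smul,
        Matrix.mul_smul, Matrix.mul_one, neg_smul, ← h5]
      abel
    exact hB (hZ2 _ _ _ (hHu.mul_left_cancel h6))
  -- scaling
  obtain ⟨t, ht, hN⟩ : ∃ t : K, star t = t ∧ t ≠ 0 ∧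
      (t * t * hf H e (Z *ᵥ e) / B) * star (t * t * hf H e (Z *ᵥ e) / B) ≠ 1 := by
    by_cases h : (hf H e (Z *ᵥ e) / B) * star (hf H e (Z *ᵥ e) / B) = 1
    · refine ⟨2, h2', h2, ?_⟩
      have h3 : 2 * 2 * hf H e (Z *ᵥ e) / B = 4 * (hf H e (Z *ᵥ e) / B) := by ring
      have h4 : star (4 : K) = 4 := by
        have : (4 : K) = 2 * 2 := by norm_num
        rw [this, star_mul', h2']
      rw [h3, star_mul', h4]
      have h5 : 4 * (hf H e (Z *ᵥ e) / B) * (4 * star (hf H e (Z *ᵥ e) / B)) =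
          16 * ((hf H e (Z *ᵥ e) / B) * star (hf H e (Z *ᵥ e) / B)) := by ring
      rw [h5, h]
      norm_num
    · refine ⟨1, star_one K, one_ne_zero, ?_⟩
      rw [one_mul, one_mul]
      exact h
  obtain ⟨ht0, hN⟩ := hN
  set A := hf H e (Z *ᵥ e) with hAdef
  have hA0 : A ≠ 0 := by
    intro h; rw [h, star_zero, zero_mul, zero_mul] at hA; exact hA rfl
  set θ := star (t * t * A / B) with hθ
  have hsθ : star θ = t * t * A / B := by rw [hθ, star_star]
  have hθ0 : θ ≠ 0 := by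
    rw [hθ, star_ne_zero]
    exact div_ne_zero (mul_ne_zero (mul_ne_zero ht0 ht0) hA0) hB
  have hsθ0 : star θ ≠ 0 := by simpa using hθ0
  have hWd := det_ne_zero_of_unitary hd hW₀
  have hWu : IsUnit W₀.det := isUnit_iff_ne_zero.2 hWd
  set f' := W₀⁻¹ *ᵥ f with hf'
  have hWf' : W₀ *ᵥ f' = f := by
    rw [hf', mulVec_mulVec, Matrix.mul_nonsing_inv _ hWu, one_mulVec]
  have hf'f' : hf H f' f' = 0 := by rw [← hf_mulVec hW₀, hWf', hff]
  have hf'f : hf H f' f = B := by rw [← hf_mulVec hW₀, hWf']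
  -- the two hyperbolic pairs
  set e1 := t • e with he1
  set e2 := θ⁻¹ • (Z *ᵥ e1) with he2
  have he1e1 : hf H e1 e1 = 0 := by rw [he1, hf_smul_left, hf_smul_right, hee, mul_zero, mul_zero]
  have he2e2 : hf H e2 e2 = 0 := by
    rw [he2, hf_smul_left, hf_smul_right, hf_mulVec hZ, he1e1, mul_zero, mul_zero]
  have he12 : hf H e1 e2 = B := by
    rw [he2, hf_smul_right, he1, mulVec_smul, hf_smul_left, hf_smul_right, ← hAdef, star_inv₀,
      hsθ, ht]
    field_simp
  obtain ⟨U, hU, hUdet, hUe1, hUe2⟩ := witt hH he1e1 he2e2 hf'f' hff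
    (he12.trans hf'f.symm) (by rw [he12]; exact hB)
  have hUu : IsUnit U.det := by rw [hUdet]; exact isUnit_one
  have hUinv : U⁻¹ *ᵥ f' = e1 := by
    rw [← hUe1, mulVec_mulVec, Matrix.nonsing_inv_mul _ hUu, one_mulVec]
  refine ⟨U, θ, f, hU, hUdet, ?_, ?_, ?_, ?_⟩
  · intro h
    rw [hBdef, h, hf_zero_left] at hB
    exact hB rfl
  · rw [hsθ, hθ, mul_comm]; exact hN
  · intro h
    apply hA
    rw [hsθ, hθ, star_div₀, star_mul', star_mul', ht] at h
    have h3 : (t * t) * (A * star B) = (t * t) * (star A * B) := by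
      field_simp at h
      linear_combination (t * t) * h
    exact mul_left_cancel₀ (mul_ne_zero ht0 ht0) h3
  · rw [← mulVec_mulVec, ← mulVec_mulVec, ← mulVec_mulVec, ← hf', hUinv]
    have h3 : Z *ᵥ e1 = θ • e2 := by rw [he2, smul_smul, mul_inv_cancel₀ hθ0, one_smul]
    rw [h3, mulVec_smul, hUe2]

theorem isU_mul {X Y : Matrix (Fin 3) (Fin 3) K} (hX : Xᴴ * H * X = H) (hY : Yᴴ * H * Y = H) :
    (X * Y)ᴴ * H * (X * Y) = H := by
  rw [conjTranspose_mul]
  calc Yᴴ * Xᴴ * H * (X * Y) = Yᴴ * (Xᴴ * H * X) * Y := by simp only [Matrix.mul_assoc]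
    _ = H := by rw [hX, hY]

theorem isU_inv (hd : H.det ≠ 0) {X : Matrix (Fin 3) (Fin 3) K} (hX : Xᴴ * H * X = H) :
    (X⁻¹)ᴴ * H * X⁻¹ = H := by
  have hXu : IsUnit X.det := isUnit_iff_ne_zero.2 (det_ne_zero_of_unitary hd hX)
  calc (X⁻¹)ᴴ * H * X⁻¹ = (X⁻¹)ᴴ * (Xᴴ * H * X) * X⁻¹ := by rw [hX]
    _ = ((X⁻¹)ᴴ * Xᴴ) * H * (X * X⁻¹) := by simp only [Matrix.mul_assoc]
    _ = H := by
      rw [← conjTranspose_mul, Matrix.mul_nonsing_inv _ hXu, conjTranspose_one, Matrix.one_mul,
        Matrix.mul_one]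

/-- **THE MOVE AND THE COMMUTATOR**: after conjugation of `Z` by some `U` in the special unitary
group, `U Z U⁻¹ W₀⁻¹` is a commutator `G W G⁻¹ W⁻¹` of special unitary matrices, `W` with the
eigenvalues `s, 1, s⁻¹`. -/
theorem exists_move_comm (hH : Hᴴ = H) (hd : H.det ≠ 0) [CharZero K] {δ : K}
    (hδ : star δ = -δ) (hδ0 : δ ≠ 0) {a b : Fin 3 → K} (haa : hf H a a = 0)
    (hbb : hf H b b = 0) (hab : hf H a b = 1) {Z W₀ : Matrix (Fin 3) (Fin 3) K}
    (hZ : Zᴴ * H * Z = H) (hW₀ : W₀ᴴ * H * W₀ = H) (hdet : Z.det = W₀.det)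
    (hZ2 : ∀ α β γ : K, α • (Z * Z) + β • Z + γ • 1 = 0 → α = 0)
    (hW2 : ∀ c : K, W₀ ≠ c • 1) {s : K} (hs : star s = s) (hs0 : s ≠ 0) (hs1 : s * s ≠ 1) :
    ∃ U G W : Matrix (Fin 3) (Fin 3) K, Uᴴ * H * U = H ∧ U.det = 1 ∧
      Gᴴ * H * G = H ∧ G.det = 1 ∧ Wᴴ * H * W = H ∧ W.det = 1 ∧
      (U * Z * U⁻¹ * W₀⁻¹) * W * G = G * W ∧
      ∃ a b : Fin 3 → K, hf H a a = 0 ∧ hf H b b = 0 ∧ hf H a b = 1 ∧ W *ᵥ a = s • a ∧
        W *ᵥ b = s⁻¹ • b := by
  obtain ⟨U, θ, f, hU, hUdet, hf0, h1, h2, hXf⟩ :=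
    exists_move hH hd hδ hδ0 haa hbb hab hZ hW₀ hZ2 hW2
  have hX : (U * Z * U⁻¹ * W₀⁻¹)ᴴ * H * (U * Z * U⁻¹ * W₀⁻¹) = H :=
    isU_mul (isU_mul (isU_mul hU hZ) (isU_inv hd hU)) (isU_inv hd hW₀)
  have hXdet : (U * Z * U⁻¹ * W₀⁻¹).det = 1 := by
    have hWu : IsUnit W₀.det := isUnit_iff_ne_zero.2 (det_ne_zero_of_unitary hd hW₀)
    rw [det_mul, det_mul, det_mul, Matrix.det_nonsing_inv, Matrix.det_nonsing_inv, hUdet, hdet,
      Ring.inverse_one, one_mul, mul_one, Ring.mul_inverse_cancel _ hWu]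
  obtain ⟨G, W, hG, hGdet, hW, hWdet, hGW, hab'⟩ :=
    exists_comm hH hd hX hXdet hXf hf0 h1 h2 hs hs0 hs1
  exact ⟨U, G, W, hU, hUdet, hG, hGdet, hW, hWdet, hGW, hab'⟩

end Vale.Agent.P011.H521.LC
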