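import Vale.Agent.P011.H182.LocNS
import Vale.Agent.P011.H521.LocComm

/-!
The local model of an algebra of degree three at a nonsplit finite place, with the density of the
special unitary group.
-/

open Module NumberField IsDedekindDomain Filter Topology Matrix TensorProduct
open Vale.Agent.P011.T2 (QuadL HF)

set_option linter.unusedSectionVars false

namespace Vale.Agent.P011.H521

open Vale.Agent.P011.Arith Vale.Agent.P011.Even Vale.Agent.P011.Two Vale.Agent.P011.One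
  Vale.Agent.P011.One.Ns Vale.Agent.P011.H182 Vale.Agent.P011.H521.LC

/-- A hyperbolic pair for the inverse matrix gives one for the matrix. -/
theorem hf_of_bh {L : Type} [Field L] [StarRing L] {G : Matrix (Fin 3) (Fin 3) L}
    (hGs : Gᴴ = G) (hd : IsUnit G.det) (x y : Fin 3 → L) :
    hf G (G⁻¹ *ᵥ star y) (G⁻¹ *ᵥ star x) = x ⬝ᵥ (G⁻¹ *ᵥ star y) := by
  have hGis : (G⁻¹)ᴴ = G⁻¹ := by rw [Matrix.conjTranspose_nonsing_inv, hGs]
  unfold hf
  rw [mulVec_mulVec, Matrix.mul_nonsing_inv _ hd, one_mulVec, star_mulVec, star_star, hGis,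
    dotProduct_mulVec]

variable {k K D : Type} [Field k] [NumberField k] [Field K] [StarRing K]
    [DivisionRing D] [StarRing D] [Algebra k K] [Algebra k D] [Algebra K D] [IsScalarTower k K D]
    {d : kˣ} {s : K} {N : ℕ}

/-- **The local model at a nonsplit finite place.** -/
theorem exists_loc (hS : Setting k K D d s) (hdeg : finrank K D = 3 ^ 2)
    (B : Basis (Fin N) k D) (v : HeightOneSpectrum (𝓞 k)) (hv : d ∉ LS (v.valuation k))
    {Ω : Type} [Field Ω] [Algebra K Ω] (fΩ : D →ₐ[K] Matrix (Fin 3) (Fin 3) Ω) :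
    ∃ (F L : Type) (_ : NontriviallyNormedField F) (_ : ProperSpace F) (_ : IsUltrametricDist F)
      (_ : Algebra k F) (_ : Field L) (_ : Algebra F L) (_ : StarRing L) (_ : Algebra K L)
      (G : Matrix (Fin 3) (Fin 3) L) (BA : Basis (Fin N) F (Matrix (Fin 3) (Fin 3) L))
      (I : Inv F (Matrix (Fin 3) (Fin 3) L)) (f : D →ₐ[K] Matrix (Fin 3) (Fin 3) L)
      (h : Mdl BA I B (fa v) (f : D →+* Matrix (Fin 3) (Fin 3) L)),
      CharZero F ∧ CharZero L ∧ FiniteDimensional F L ∧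
      (∀ x : L, star x = x ↔ x ∈ Set.range (algebraMap F L)) ∧ (∃ x : L, star x ≠ x) ∧
      Gᴴ = G ∧ G.det ≠ 0 ∧ (∀ Y, I.τ Y = G⁻¹ * Yᴴ * G) ∧
      (∃ a b : Fin 3 → L, hf G a a = 0 ∧ hf G b b = 0 ∧ hf G a b = 1) ∧
      (∀ (y : F) (ε : ℝ), 0 < ε → ∃ x : k, ‖algebraMap k F x - y‖ < ε) ∧
      ∀ T : UT BA I, T.val.det = 1 → T ∈ h.cl fΩ := by
  classical
  have := hS.fin
  have := hS.cen
  have : CharZero K := charZero_of_injective_algebraMap (algebraMap k K).injective
  let _ := nnf v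
  have := isUltra v
  obtain ⟨L, _, _, _, ρ, G, hfix, hL2, hGu, hGs, hG⟩ := exists_local_model hS hdeg v hv
  obtain ⟨dL, hQ⟩ := exists_quadL hfix hL2
  have : CharZero L :=
    charZero_of_injective_algebraMap (algebraMap (v.adicCompletion k) L).injective
  have : FiniteDimensional (v.adicCompletion k) L :=
    Module.finite_of_finrank_pos (by rw [hL2]; exact two_pos)
  have hσ : ∀ x, hS.sig x = star x := fun x => rfl
  have hG' : ∀ T, G * ρ (sg hS v T) = (ρ T)ᴴ * G := hG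
  obtain ⟨θ, -, -, hθs, hθd⟩ := model_theta (by omega) hGu hG'
  have hU := univ2 hv hfix hθs hθd
  have hGd : IsUnit G.det := (Matrix.isUnit_iff_isUnit_det G).mp hGu
  have hGG : G * G⁻¹ = 1 := Matrix.mul_nonsing_inv _ hGd
  have hGG' : G⁻¹ * G = 1 := Matrix.nonsing_inv_mul _ hGd
  have hGis : (G⁻¹)ᴴ = G⁻¹ := by rw [Matrix.conjTranspose_nonsing_inv, hGs]
  have hGid : (G⁻¹).det ≠ 0 := by
    have h1 : IsUnit G⁻¹ := ⟨⟨G⁻¹, G, hGG', hGG⟩, rfl⟩
    exact ((Matrix.isUnit_iff_isUnit_det _).mp h1).ne_zero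
  let f : D →+* Matrix (Fin 3) (Fin 3) L :=
    (ρ.toAlgHom : v.adicCompletion k ⊗[k] D →+* Matrix (Fin 3) (Fin 3) L).comp
      (Algebra.TensorProduct.includeRight : D →ₐ[k] v.adicCompletion k ⊗[k] D).toRingHom
  have hf : ∀ x, f x = ρ (1 ⊗ₜ x) := fun x => rfl
  have hspan : ∀ Y, ∃ b : Fin N → v.adicCompletion k, ∑ j, b j • f (B j) = Y := by
    intro Y
    let BA := Algebra.TensorProduct.basis (v.adicCompletion k) B
    refine ⟨fun j => BA.repr (ρ.symm Y) j, ?_⟩
    have h1 : ∑ j, BA.repr (ρ.symm Y) j • BA j = ρ.symm Y := BA.sum_repr _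
    have h2 := congrArg ρ h1
    rw [map_sum, AlgEquiv.apply_symm_apply] at h2
    refine Eq.trans (Finset.sum_congr rfl fun j _ => ?_) h2
    rw [map_smul, hf, Algebra.TensorProduct.basis_apply]
  obtain ⟨φ, hφ⟩ := exists_center (K := K) (by omega) B f hspan
  obtain ⟨z, z', hp⟩ := Fr.exists_hp hQ hU (rowHF G⁻¹ hGis) (rowHF_nondeg G⁻¹ hGis hGid)
    (by rw [Module.finrank_fin_fun])
  have h00 := hp.zz
  have h11 := hp.zz'
  have h01 := hp.one
  rw [bh_eq] at h00 h11 h01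
  -- the model
  have hcard : finrank (v.adicCompletion k) (Matrix (Fin 3) (Fin 3) L) = N :=
    card_basis hS hdeg B hL2
  let BA : Basis (Fin N) (v.adicCompletion k) (Matrix (Fin 3) (Fin 3) L) :=
    basisOfTopLeSpanOfCardEqFinrank (fun j => f (B j)) (by
      intro Y _
      obtain ⟨b, hb⟩ := hspan Y
      rw [← hb]
      exact Submodule.sum_mem _ fun j _ => Submodule.smul_mem _ _
        (Submodule.subset_span ⟨j, rfl⟩)) (by rw [Fintype.card_fin, hcard])
  have hBA : ∀ j, BA j = f (B j) := fun j => by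
    rw [coe_basisOfTopLeSpanOfCardEqFinrank]
  let I := invM hQ G⁻¹ G hGis hGG hGG'
  have hf1 : ∀ (a : k) x, f (a • x) = algebraMap k (v.adicCompletion k) a • f x := by
    intro a x
    rw [hf, hf, TensorProduct.tmul_smul, ← map_smul,
      ← algebraMap_smul (v.adicCompletion k) a ((1 : v.adicCompletion k) ⊗ₜ[k] x)]
  have hf2 : ∀ x, f (star x) * G⁻¹ = G⁻¹ * (f x)ᴴ := by
    intro x
    have h1 := hG (1 ⊗ₜ x)
    rw [LinearMap.baseChange_tmul, hσ, ← hf, ← hf] at h1
    calc f (star x) * G⁻¹ = G⁻¹ * (G * f (star x)) * G⁻¹ := by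
          rw [← mul_assoc, hGG', one_mul]
      _ = G⁻¹ * (f x)ᴴ * (G * G⁻¹) := by rw [h1]; simp only [mul_assoc]
      _ = _ := by rw [hGG, mul_one]
  have hI : ∀ x, I.τ (f x) = f (star x) := by
    intro x
    change G⁻¹ * (f x)ᴴ * G = _
    rw [← hf2, mul_assoc, hGG', mul_one]
  let _ : Algebra K L := φ.toAlgebra
  let fK : D →ₐ[K] Matrix (Fin 3) (Fin 3) L := { f with commutes' := fun c => hφ c }
  have hfK : (fK : D →+* Matrix (Fin 3) (Fin 3) L) = f := rfl
  have hmdl : Mdl BA I B (fa v) (fK : D →+* Matrix (Fin 3) (Fin 3) L) :=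
    { smul := hf1
      basis := hBA
      star := hI
      norm := fun x => norm_algebraMap_eq v x }
  -- density
  have hden : ∀ (y : v.adicCompletion k) (ε : ℝ), 0 < ε →
      ∃ x : k, ‖algebraMap k (v.adicCompletion k) x - y‖ < ε := by
    intro y ε hε
    obtain ⟨x, hx⟩ := dense v y ε hε
    exact ⟨x, by rwa [← norm_neg, neg_sub]⟩
  have hshift : ∀ S : UT BA I, ∃ Z : UT BA I, (∀ W, Z * W = W * Z) ∧ IsUnit (1 + (Z * S).val) := by
    intro S
    obtain ⟨ζ, hζ, hζu⟩ := exists_norm_one_unit hQ S.val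
    have hζ' : star ζ * ζ = 1 := by rw [mul_comm]; exact hζ
    let z : (Matrix (Fin 3) (Fin 3) L)ˣ := ⟨Matrix.scalar (Fin 3) ζ, Matrix.scalar (Fin 3) (star ζ),
      by rw [← map_mul, hζ, map_one], by rw [← map_mul, hζ', map_one]⟩
    have hz : ∀ M : Matrix (Fin 3) (Fin 3) L, Matrix.scalar (Fin 3) ζ * M = ζ • M := by
      intro M
      rw [Matrix.scalar_apply, ← Matrix.smul_eq_diagonal_mul]
    have hzc : ∀ M : Matrix (Fin 3) (Fin 3) L,
        M * Matrix.scalar (Fin 3) ζ = Matrix.scalar (Fin 3) ζ * M := fun M =>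
      ((Matrix.scalar_commute ζ (fun _ => mul_comm _ _) M)).eq.symm
    have hzU : z ∈ I.grp := by
      rw [mem_invM]
      change Matrix.scalar (Fin 3) ζ * G⁻¹ * (Matrix.scalar (Fin 3) ζ)ᴴ = G⁻¹
      have h1 : (Matrix.scalar (Fin 3) ζ)ᴴ = Matrix.scalar (Fin 3) (star ζ) := by
        rw [Matrix.scalar_apply, Matrix.scalar_apply, Matrix.diagonal_conjTranspose]
        rfl
      rw [h1, ← hzc G⁻¹, mul_assoc, ← map_mul, hζ, map_one, mul_one]
    refine ⟨⟨z, hzU⟩, fun W => ?_, ?_⟩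
    · apply UT.ext
      exact (hzc W.val).symm
    · change IsUnit (1 + Matrix.scalar (Fin 3) ζ * S.val)
      rw [hz]
      exact hζu
  have hcomm := comm_mem_cl (f := fΩ) hmdl hden hshift
  -- the special unitary group lies in the closure
  have hSU : ∀ T : UT BA I, T.val.det = 1 → T ∈ hmdl.cl fΩ := by
    intro T hT
    have hTU : (T.1 : (Matrix (Fin 3) (Fin 3) L)ˣ) ∈ UU G⁻¹ :=
      (mem_invM hQ hGis hGG hGG').mp T.2
    have h1 := su_iso hQ (sqNear v) hGis hGid one_ne_zero h00 h11 h01 hTU hT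
    have h2 : Ge G⁻¹ 1 ≤ (hmdl.cl fΩ).map I.grp.subtype := by
      unfold Ge
      rw [Subgroup.closure_le]
      rintro _ ⟨a, ha, b, hb, rfl⟩
      have ha' : a ∈ I.grp := (mem_invM hQ hGis hGG hGG').mpr ha
      have hb' : b ∈ I.grp := (mem_invM hQ hGis hGG hGG').mpr hb
      refine ⟨_, hcomm ⟨a, ha'⟩ ⟨b, hb'⟩, ?_⟩
      rw [pow_one]
      rfl
    obtain ⟨T', hT', h3⟩ := h2 h1
    have h4 : T' = T := Subtype.ext h3
    rw [← h4]
    exact hT'
  have hθ0 : θ ≠ 0 := by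
    rintro rfl
    rw [zero_pow two_ne_zero] at hθd
    have h1 := (map_eq_zero (algebraMap (v.adicCompletion k) L)).mp hθd.symm
    exact d.ne_zero ((map_eq_zero (algebraMap k (v.adicCompletion k))).mp h1)
  have hnt : star θ ≠ θ := by
    intro h
    rw [hθs] at h
    apply hθ0
    have h2 : θ + θ = 0 := by
      nth_rewrite 1 [← h]
      rw [neg_add_cancel]
    rw [← two_mul] at h2
    exact (mul_eq_zero.mp h2).resolve_left two_ne_zero
  refine ⟨v.adicCompletion k, L, inferInstance, inferInstance, inferInstance, inferInstance,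
    inferInstance, inferInstance, inferInstance, inferInstance, G, BA, I, fK, hmdl,
    inferInstance, inferInstance, inferInstance, hfix, ⟨θ, hnt⟩, hGs, hGd.ne_zero, fun _ => rfl,
    ⟨G⁻¹ *ᵥ star z', G⁻¹ *ᵥ star z, ?_, ?_, ?_⟩, hden, hSU⟩
  · rw [hf_of_bh hGs hGd]
    exact h11
  · rw [hf_of_bh hGs hGd]
    exact h00
  · rw [hf_of_bh hGs hGd]
    exact h01

end Vale.Agent.P011.H521
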